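import Vale.Agent.P022D.Pur.Big

/-!
P022D, purity: primary parts and multiples of modules over a ring of limits of Hecke operators.
-/

set_option linter.all false

noncomputable section

namespace Vale.Agent.P022D.Pur

open Vale.Agent.P022D.V IsLocalRing

theorem pow_of_nil {O B Y : Type} [CommRing O] [IsNoetherianRing O] [CommRing B] [Algebra O B]
    [AddCommGroup Y] [Module O Y] [Module B Y] [IsScalarTower O B Y] {P : Submodule O Y}
    (hP : P.FG) {y : Y} (hy : ∀ p : B, p • y ∈ P) {m : Ideal B}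
    (h : ∀ a ∈ m, ∃ k : ℕ, a ^ k • y = 0) : ∃ n : ℕ, ∀ a ∈ m ^ n, a • y = 0 := by
  let A : Ideal B := Ideal.torsionOf B Y y
  have : Module.Finite O P := Module.Finite.iff_fg.2 hP
  let f : (B ⧸ A) →ₗ[O] P := LinearMap.codRestrict P
    ((A.liftQ (LinearMap.toSpanSingleton B Y y) le_rfl).restrictScalars O) fun x => by
      obtain ⟨p, rfl⟩ := Ideal.Quotient.mk_surjective x
      exact hy p
  have : Module.Finite O (B ⧸ A) := Module.Finite.of_injective f fun x x' e => by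
    obtain ⟨p, rfl⟩ := Ideal.Quotient.mk_surjective x
    obtain ⟨p', rfl⟩ := Ideal.Quotient.mk_surjective x'
    have e' : p • y = p' • y := congrArg Subtype.val e
    exact Ideal.Quotient.eq.2 ((Ideal.mem_torsionOf_iff y _).2 (by rw [sub_smul, e', sub_self]))
  have : IsNoetherianRing (B ⧸ A) := IsNoetherianRing.of_finite O _
  obtain ⟨n, hn⟩ := IsNoetherianRing.isNilpotent_nilradical (B ⧸ A)
  have h1 : m.map (Ideal.Quotient.mk A) ≤ nilradical (B ⧸ A) := by
    rw [Ideal.map_le_iff_le_comap]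
    intro a ha
    obtain ⟨k, hk⟩ := h a ha
    exact ⟨k, by
      rw [← map_pow]
      exact Ideal.Quotient.eq_zero_iff_mem.2 ((Ideal.mem_torsionOf_iff y _).2 hk)⟩
  refine ⟨n, fun a ha => (Ideal.mem_torsionOf_iff y a).1 (Ideal.Quotient.eq_zero_iff_mem.1 ?_)⟩
  have h2 := Ideal.pow_right_mono h1 n (by
    rw [← Ideal.map_pow]; exact Ideal.mem_map_of_mem _ ha)
  rwa [hn, Ideal.zero_eq_bot, Ideal.mem_bot] at h2

variable {O : Type} [CommRing O] [Co O] {M : ℕ} [NeZero M] {π : O} {R : Type} [CommRing R]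
  [Algebra O R] {φ : RR π →ₗ[O] R} {N K K' : Submodule O (FT M R)} {i : ℕ}
  {B : Type} [CommRing B] [Algebra O B] {Y : Type} [AddCommGroup Y] [Module O Y] [Module B Y]
  [IsScalarTower O B Y] {ι : Y →ₗ[O] FT M R}

/-- the elements of `B` act on `Y` as limits of operators which preserve `N` -/
def Lb (i : ℕ) (N : Submodule O (FT M R)) (B : Type) [CommRing B] [Module B Y]
    (ι : Y →ₗ[O] FT M R) : Prop :=
  ∀ (p : B) (s : Finset Y), ∃ C ∈ HA O R M i, (∀ v ∈ N, C v ∈ N) ∧ ∀ y ∈ s, ι (p • y) = C (ι y)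

omit [Co O] [NeZero M] in
/-- multiples -/
theorem Cut.smul (hc : Cut i N K) (hι : Function.Injective ι) (hr : LinearMap.range ι = K)
    (app : Lb i N B ι) (τ : B) (h : ∀ v, v ∈ K' ↔ ∃ y, ι (τ • y) = v) : Cut i N K' := by
  have e : K' = LinearMap.range (ι ∘ₗ Algebra.lsmul O O Y τ) := Submodule.ext h
  rw [e]
  exact hc.map hι hr (app τ)

omit [Co O] [NeZero M] in
/-- images under one operator -/
theorem Cut.op (hc : Cut i N K) {C : Module.End O (FT M R)} (hC : C ∈ HA O R M i)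
    (hN : ∀ v ∈ N, C v ∈ N) : Cut i N (K.map C) := by
  have := hc.map K.injective_subtype K.range_subtype (u := C ∘ₗ K.subtype)
    fun _ => ⟨C, hC, hN, fun _ _ => rfl⟩
  rwa [LinearMap.range_comp, Submodule.range_subtype] at this

/-- primary parts -/
theorem Cut.prim (hK : HK O) (hM : Odd M) (hπ : Unif π) (h : Amb π φ N) (hc : Cut i N K)
    (hι : Function.Injective ι) (hr : LinearMap.range ι = K) (app : Lb i N B ι) (m : Ideal B)
    (h' : ∀ v, v ∈ K' ↔ ∃ y, ι y = v ∧ ∃ n : ℕ, ∀ a ∈ m ^ n, a • y = 0) : Cut i N K' := by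
  classical
  have := max_pi hπ
  have := noeth hπ
  have hN : ∀ y, ι y ∈ N := fun y => hc.le (hr ▸ LinearMap.mem_range_self ι y)
  let Z : FZ O Y 0 :=
    { fil := fun n => ((fl M π n).map (ml O M φ)).comap ι
      z := 1
      mono := fun _ _ e => Submodule.comap_mono (Submodule.map_mono (fl_mono hπ e))
      exh := fun y => (h.fz hπ).exh ⟨ι y, hN y⟩
      step := fun _ _ hv => hv }
  have hst : ∀ (p : B) w, ∀ y ∈ Z.fil w, p • y ∈ Z.fil w := fun p w y hy => by
    obtain ⟨C, a1, a2, a3⟩ := app p {y}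
    have := (h.appr hK hM hπ a1 a2).1 w ⟨ι y, hN y⟩ hy
    change ι (p • y) ∈ (fl M π w).map (ml O M φ)
    rw [a3 y (Finset.mem_singleton_self y)]
    exact this
  have hp : ∀ (a : B) (k : ℕ) (y : Y), ((Algebra.lsmul O O Y a) ^ k) y = a ^ k • y :=
    fun a k y => by rw [← map_pow]; rfl
  obtain ⟨e, h1, h2, h3⟩ := exists_proj_ring (B := Z) (Ideal.span {π})
    (fun a ha y => hι (by
      rw [map_smul, map_zero]
      exact congrArg Subtype.val (h.tors a ha ⟨ι y, hN y⟩)))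
    (fg_comap hM hπ hι) (fun j : m => Algebra.lsmul O O Y j.1)
    (fun j => ⟨hst j.1, fun _ _ _ _ _ => by simp [Z]⟩)
    (fun j k => by rw [← map_mul, ← map_mul, mul_comm])
  have e1 : K' = LinearMap.range (ι ∘ₗ e) := by
    ext v
    rw [h']
    refine ⟨?_, ?_⟩
    · rintro ⟨y, rfl, n, hn⟩
      exact ⟨y, congrArg ι (h2 y fun j => ⟨n, (hp _ _ _).trans
        (hn _ (Ideal.pow_mem_pow j.2 n))⟩)⟩
    · rintro ⟨y, rfl⟩
      obtain ⟨w, hw⟩ := Z.exh (e y)
      exact ⟨e y, rfl, pow_of_nil (fg_comap hM hπ hι w) (fun p => hst p w _ hw) fun a ha =>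
        (h1 y ⟨a, ha⟩).imp fun k hk => (hp _ _ _).symm.trans hk⟩
  rw [e1]
  refine hc.map hι hr fun s => ?_
  choose n hn using Z.exh
  obtain ⟨C, hC, h4⟩ := h3 (s.sup n)
  obtain ⟨p, rfl⟩ : C ∈ (Algebra.lsmul O O Y : B →ₐ[O] Module.End O Y).range := by
    refine Algebra.adjoin_le ?_ hC
    rintro _ ⟨j, rfl⟩
    exact ⟨j.1, rfl⟩
  obtain ⟨C', a1, a2, a3⟩ := app p s
  exact ⟨C', a1, a2, fun y hy => (congrArg ι
    (h4 y (Z.mono (Finset.le_sup hy) (hn y)))).trans (a3 y hy)⟩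

end Vale.Agent.P022D.Pur
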