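import Vale.Agent.P022D.V.TrR

/-!
P022D, purity: the coefficients of rational tuples lie in the unramified ring `O[ζ]`.
-/

set_option linter.all false

noncomputable section

namespace Vale.Agent.P022D.Pur

open Polynomial Vale.Agent.P022D.V Vale.Agent.P027M.M

variable {O : Type} [CommRing O] [Co O] {M : ℕ}

/-- `σ` fixes `O` -/
def Fx (O : Type) [CommRing O] [Co O] (σ : ℂ ≃+* ℂ) : Prop := ∀ a : O, σ (Co.j a) = Co.j a

theorem Fx.symm {σ : ℂ ≃+* ℂ} (h : Fx O σ) : Fx O σ.symm := fun a => by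
  rw [RingEquiv.symm_apply_eq, h a]

theorem Fx.trans {σ τ : ℂ ≃+* ℂ} (h : Fx O σ) (h' : Fx O τ) : Fx O (σ.trans τ) := fun a => by
  rw [RingEquiv.trans_apply, h a, h' a]

/-- `σ` on the valuation ring -/
def sA {σ : ℂ ≃+* ℂ} (h : Fx O σ) : AA O →+* AA O :=
  ((σ : ℂ →+* ℂ).comp (av O)).codRestrict (Co.A O : ValuationSubring ℂ)
    fun x => Co.stab σ h _ (av_mem x)

theorem av_sA {σ : ℂ ≃+* ℂ} (h : Fx O σ) (x : AA O) : av O (sA h x) = σ (av O x) := rfl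

theorem sA_symm {σ : ℂ ≃+* ℂ} (h : Fx O σ) (x : AA O) : sA h.symm (sA h x) = x :=
  av_inj (by rw [av_sA, av_sA, RingEquiv.symm_apply_apply])

theorem sA_symm' {σ : ℂ ≃+* ℂ} (h : Fx O σ) (x : AA O) : sA h (sA h.symm x) = x :=
  av_inj (by rw [av_sA, av_sA, RingEquiv.apply_symm_apply])

theorem interp {R : Type} [CommRing R] [Nontrivial R] [DecidableEq R] (Z : Finset R)
    (h0 : 0 < Z.card) (hu : ∀ z ∈ Z, ∀ z' ∈ Z.erase z, IsUnit (z - z')) (r : R → R) :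
    ∃ P : R[X], (∀ z ∈ Z, P.eval z = r z) ∧ P.natDegree < Z.card ∧
      ∀ I : Ideal R, (∀ z ∈ Z, r z ∈ I) → ∀ i, P.coeff i ∈ I := by
  refine ⟨∑ z ∈ Z, C (r z * Ring.inverse (∏ z' ∈ Z.erase z, (z - z'))) *
    ∏ z' ∈ Z.erase z, (X - C z'), fun z hz => ?_, ?_, fun I hI i => ?_⟩
  · rw [eval_finset_sum, Finset.sum_eq_single z]
    · rw [eval_mul, eval_C, eval_prod]
      simp only [eval_sub, eval_X, eval_C]
      rw [mul_assoc, Ring.inverse_mul_cancel _ (IsUnit.prod_iff.2 (hu z hz)), mul_one]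
    · intro y _ hy
      rw [eval_mul, eval_prod]
      exact mul_eq_zero_of_right _
        (Finset.prod_eq_zero (Finset.mem_erase.2 ⟨hy.symm, hz⟩) (by simp))
    · exact fun h => absurd hz h
  · refine lt_of_le_of_lt (natDegree_sum_le_of_forall_le _ _ (n := Z.card - 1) fun z hz => ?_)
      (by omega)
    refine (natDegree_C_mul_le _ _).trans ?_
    rw [natDegree_finsetProd_X_sub_C_eq_card, Finset.card_erase_of_mem hz]
  · rw [finset_sum_coeff]
    refine Ideal.sum_mem _ fun z hz => ?_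
    rw [coeff_C_mul]
    exact Ideal.mul_mem_right _ _ (Ideal.mul_mem_right _ _ (hI z hz))

theorem coef' [NeZero M] (hM : Odd M) (x : AA O)
    (hx : ∀ σ : ℂ ≃+* ℂ, Fx O σ → σ (ze M 1) = ze M 1 → σ (av O x) = av O x) :
    ∃ c : ℕ → O, x = ∑ i ∈ Finset.range M, algebraMap O (AA O) (c i) * Tr.zA O M ^ i ∧
      (¬ IsUnit x → ∀ i, ¬ IsUnit (c i)) ∧
      ∀ I : Ideal (AA O), (∀ (σ : ℂ ≃+* ℂ) (h : Fx O σ), sA h x - x ∈ I) →
        algebraMap O (AA O) (c 0) - x ∈ I := by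
  classical
  have hζ : av O (Tr.zA O M) = ze M 1 := rfl
  let Z : Finset (AA O) := (Finset.univ.image fun a : ZMod M => A.ch (Tr.zA O M) a).filter
    fun z => ∃ σ : ℂ ≃+* ℂ, Fx O σ ∧ σ (ze M 1) = av O z
  have hZ : ∀ z, z ∈ Z ↔ ∃ σ : ℂ ≃+* ℂ, Fx O σ ∧ σ (ze M 1) = av O z := fun z => by
    refine ⟨fun h => (Finset.mem_filter.1 h).2, fun h => Finset.mem_filter.2 ⟨?_, h⟩⟩
    obtain ⟨σ, -, h⟩ := h
    obtain ⟨a, ha⟩ := Tr.exists_exp (M := M) σ
    refine Finset.mem_image.2 ⟨a, Finset.mem_univ _, av_inj ?_⟩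
    rw [← h, ha, A.ch, map_pow, hζ]
  have hcard : Z.card ≤ M :=
    (Finset.card_filter_le _ _).trans (Finset.card_image_le.trans (by simp))
  have hu : ∀ z ∈ Z, ∀ z' ∈ Z.erase z, IsUnit (z - z') := by
    intro z hz z' hz'
    obtain ⟨a, -, rfl⟩ := Finset.mem_image.1 (Finset.mem_filter.1 hz).1
    obtain ⟨b, -, rfl⟩ := Finset.mem_image.1 (Finset.mem_filter.1 (Finset.mem_of_mem_erase hz')).1
    exact (Tr.adm hM).sub fun e => Finset.ne_of_mem_erase hz' (by rw [e])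
  obtain ⟨r, hr⟩ : ∃ r : AA O → AA O, ∀ (σ : ℂ ≃+* ℂ) (h : Fx O σ) (z : AA O),
      σ (ze M 1) = av O z → r z = sA h x := by
    refine ⟨fun z => if h : ∃ σ : ℂ ≃+* ℂ, Fx O σ ∧ σ (ze M 1) = av O z then
      sA h.choose_spec.1 x else 0, fun σ h z hz => ?_⟩
    have he : ∃ σ : ℂ ≃+* ℂ, Fx O σ ∧ σ (ze M 1) = av O z := ⟨σ, h, hz⟩
    simp only [dif_pos he]
    apply av_inj
    have := hx (he.choose.trans σ.symm) (he.choose_spec.1.trans h.symm) (by
      rw [RingEquiv.trans_apply, he.choose_spec.2, ← hz, RingEquiv.symm_apply_apply])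
    rw [RingEquiv.trans_apply, RingEquiv.symm_apply_eq] at this
    rw [av_sA, av_sA, this]
  have h1 : Tr.zA O M ∈ Z := (hZ _).2 ⟨RingEquiv.refl ℂ, fun _ => rfl, rfl⟩
  have h0 := Finset.card_pos.2 ⟨_, h1⟩
  obtain ⟨P, hev, hdeg, hPI⟩ := interp Z h0 hu r
  have hfix : ∀ (σ : ℂ ≃+* ℂ) (h : Fx O σ), P.map (sA h) = P := by
    intro σ h
    refine eq_of_natDegree_lt_card_of_eval_eq' _ _ Z (fun z hz => ?_)
      (max_lt (natDegree_map_le.trans_lt hdeg) hdeg)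
    obtain ⟨τ, hτ, hz'⟩ := (hZ z).1 hz
    have h2 : (τ.trans σ.symm) (ze M 1) = av O (sA h.symm z) := by
      rw [RingEquiv.trans_apply, hz', av_sA]
    have h3 := hev _ ((hZ _).2 ⟨_, hτ.trans h.symm, h2⟩)
    rw [hev z hz, hr τ hτ z hz']
    conv_lhs => rw [← sA_symm' h z]
    rw [eval_map, eval₂_hom, h3, hr _ (hτ.trans h.symm) _ h2]
    apply av_inj
    rw [av_sA, av_sA, av_sA, RingEquiv.trans_apply, RingEquiv.apply_symm_apply]
  have hc : ∀ i, ∃ c : O, algebraMap O (AA O) c = P.coeff i := fun i => by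
    obtain ⟨c, hc⟩ := Co.fix (O := O) _ (av_mem (P.coeff i)) fun σ h => by
      rw [← av_sA h, ← coeff_map, hfix σ h]
    exact ⟨c, av_inj (by rw [av_alg, hc])⟩
  choose c hc using hc
  refine ⟨c, ?_, fun hn i hi => ?_, fun I hI => ?_⟩
  · have h4 := hev _ h1
    rw [hr (RingEquiv.refl ℂ) (fun _ => rfl) _ rfl,
      eval_eq_sum_range' (hdeg.trans_le hcard)] at h4
    simp only [hc]
    exact h4.symm
  · have h5 : P.coeff i ∈ IsLocalRing.maximalIdeal (AA O) := by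
      refine hPI _ (fun z hz => ?_) i
      obtain ⟨τ, hτ, hz'⟩ := (hZ z).1 hz
      rw [hr τ hτ z hz']
      intro h6
      exact hn (sA_symm hτ x ▸ h6.map (sA hτ.symm))
    rw [← hc] at h5
    exact h5 (hi.map _)
  · obtain ⟨Q, hev', hdeg', hQI⟩ := interp Z h0 hu fun z => r z - x
    have e : P - C x = Q := eq_of_natDegree_lt_card_of_eval_eq' _ _ Z
      (fun z hz => by rw [eval_sub, eval_C, hev z hz, hev' z hz])
      (max_lt (by rwa [natDegree_sub_C]) hdeg')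
    have h7 := hQI I (fun z hz => by
      obtain ⟨τ, hτ, hz'⟩ := (hZ z).1 hz
      rw [hr τ hτ z hz']
      exact hI τ hτ) 0
    rwa [← e, coeff_sub, coeff_C_zero, ← hc] at h7

theorem coef [NeZero M] (hM : Odd M) (x : AA O)
    (hx : ∀ σ : ℂ ≃+* ℂ, Fx O σ → σ (ze M 1) = ze M 1 → σ (av O x) = av O x) :
    ∃ c : ℕ → O, x = ∑ i ∈ Finset.range M, algebraMap O (AA O) (c i) * Tr.zA O M ^ i ∧
      (¬ IsUnit x → ∀ i, ¬ IsUnit (c i)) := by
  obtain ⟨c, h1, h2, -⟩ := coef' hM x hx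
  exact ⟨c, h1, h2⟩

/-- the coefficients of a rational tuple -/
theorem gal_coef [NeZero M] (hM : Odd M) {w : FT M (AA O)} (hw : Gal w) (g : GM M) (n : ℕ) :
    ∃ c : ℕ → O, (w g).coeff n =
      ∑ i ∈ Finset.range M, algebraMap O (AA O) (c i) * Tr.zA O M ^ i ∧
      (¬ IsUnit ((w g).coeff n) → ∀ i, ¬ IsUnit (c i)) := by
  refine coef hM _ fun σ h hζ => ?_
  have := hw σ h 1 (by
    rw [hζ]
    rcases Nat.lt_or_ge 1 M with h1 | h1
    · have : Fact (1 < M) := ⟨h1⟩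
      rw [Units.val_one, ZMod.val_one, pow_one]
    · obtain rfl : M = 1 := le_antisymm h1 (NeZero.pos M)
      have := (ze_prim (N := 1) one_pos).pow_eq_one
      rw [pow_one] at this
      rw [this, one_pow]) g n
  rwa [dg_one, one_mul] at this

/-- a non unit coefficient of a rational tuple is divisible by the uniformiser -/
theorem gal_dvd [NeZero M] (hM : Odd M) {ϖ : O} (hϖ : ∀ a : O, ¬ IsUnit a → ϖ ∣ a)
    {w : FT M (AA O)} (hw : Gal w) (g : GM M) (n : ℕ) (h : ¬ IsUnit ((w g).coeff n)) :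
    algebraMap O (AA O) ϖ ∣ (w g).coeff n := by
  obtain ⟨c, h1, h2⟩ := gal_coef hM hw g n
  rw [h1]
  exact Finset.dvd_sum fun i _ => (_root_.map_dvd _ (hϖ _ (h2 h i))).mul_right _

end Vale.Agent.P022D.Pur
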