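import Vale.Agent.P022.H790.A1

/-!
P022D, purity: the Sturm bound at level one modulo an ideal of the ring of coefficients.
-/

namespace Vale.Agent.P022D.Pur

open PowerSeries UpperHalfPlane ModularForm ModularFormClass MatrixGroups EisensteinSeries
  Vale.Agent.P022.H790.A

theorem DZ_fac : ∃ u : PowerSeries ℤ, IsUnit u ∧ DZ = X * u := by
  have h0 : coeff 0 DZ = 0 := by
    have h := CuspFormClass.qExpansion_coeff_zero CuspForm.discriminant one_pos
      one_mem_strictPeriods_SL
    rw [qExp_disc, toC, coeff_map, eq_intCast] at h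
    exact_mod_cast h
  have h1 : coeff 1 DZ = 1 := by
    have h := discriminant_qExpansion_coeff_one
    have h' := qExp_disc
    rw [CuspForm.coe_discriminant] at h'
    rw [h', toC, coeff_map, eq_intCast] at h
    exact_mod_cast h
  obtain ⟨u, hu⟩ := X_dvd_iff.2 (coeff_zero_eq_constantCoeff_apply DZ ▸ h0)
  refine ⟨u, ?_, hu⟩
  rw [hu, coeff_succ_X_mul, coeff_zero_eq_constantCoeff_apply] at h1
  rw [isUnit_iff_constantCoeff, h1]
  exact isUnit_one

theorem exists_eis {k : ℤ} (h0 : 0 ≤ k) (h2 : k ≠ 2) (he : Even k) :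
    ∃ (E : ModularForm 𝒮ℒ k) (Z : PowerSeries ℤ), qExpansion 1 E = toC Z ∧ coeff 0 Z = 1 := by
  obtain ⟨a, b, rfl⟩ : ∃ a b : ℕ, k = (a : ℤ) * 4 + (b : ℤ) * 6 := by
    obtain ⟨m, rfl⟩ := he
    rcases Int.even_or_odd' m with ⟨c, h | h⟩
    · exact ⟨c.toNat, 0, by omega⟩
    · exact ⟨(c - 1).toNat, 1, by omega⟩
  refine ⟨(E₄.pow a).mul (E₆.pow b), E4Z ^ a * E6Z ^ b, ?_, ?_⟩
  · rw [ModularForm.qExpansion_mul one_pos one_mem_strictPeriods_SL,
      ModularForm.qExpansion_pow one_pos one_mem_strictPeriods_SL,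
      ModularForm.qExpansion_pow one_pos one_mem_strictPeriods_SL, qExp_E4, qExp_E6, map_mul,
      map_pow, map_pow]
  · have h : ∀ j, constantCoeff (sg j) = 0 := fun j => by
      rw [← coeff_zero_eq_constantCoeff_apply, sg, coeff_mk]
      simp
    have h4 : constantCoeff E4Z = 1 := by simp [E4Z, h]
    have h6 : constantCoeff E6Z = 1 := by simp [E6Z, h]
    rw [coeff_zero_eq_constantCoeff_apply, map_mul, map_pow, map_pow, h4, h6]
    simp

theorem map_toC {A : Type*} [CommRing A] (ι : A →+* ℂ) (Z : PowerSeries ℤ) :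
    (Z.map (Int.castRingHom A)).map ι = toC Z := by
  ext n
  simp [toC]

/-- **Sturm bound at level one** modulo the kernel of `φ` -/
theorem sturm_one {A κ : Type*} [CommRing A] [CommRing κ] (ι : A →+* ℂ)
    (hι : Function.Injective ι) (φ : A →+* κ) (n : ℕ) :
    ∀ (k : ℤ) (f : ModularForm 𝒮ℒ k) (s : PowerSeries A), s.map ι = qExpansion 1 f →
      k < 12 * n → X ^ n ∣ s.map φ → s.map φ = 0 := by
  have hinj : Function.Injective (PowerSeries.map ι) := PowerSeries.map_injective ι hι
  have hz : ∀ (k : ℤ) (f : ModularForm 𝒮ℒ k) (s : PowerSeries A), s.map ι = qExpansion 1 f →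
      (f : ℍ → ℂ) = 0 → s.map φ = 0 := by
    intro k f s hs hf
    rw [hf, qExpansion_zero, ← map_zero (PowerSeries.map ι)] at hs
    rw [hinj hs, map_zero]
  induction n with
  | zero =>
    intro k f s hs hk _
    exact hz k f s hs (levelOne_neg_weight_eq_zero (by simpa using hk) f)
  | succ n ih =>
    intro k f s hs hk hd
    by_cases h0 : k < 0
    · exact hz k f s hs (levelOne_neg_weight_eq_zero h0 f)
    by_cases h1 : Odd k
    · exact hz k f s hs (by rw [ModularForm.levelOne_odd_weight_eq_zero h1 f]; rfl)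
    by_cases h2 : k = 2
    · subst h2
      have := rank_zero_iff_forall_zero.1 ModularForm.levelOne_weight_two_rank_zero f
      exact hz 2 f s hs (by rw [this]; rfl)
    obtain ⟨E, Z, hE, hZ⟩ := exists_eis (not_lt.1 h0) h2 (Int.not_odd_iff_even.1 h1)
    obtain ⟨u, hu, hD⟩ := DZ_fac
    set a := coeff 0 s with ha
    have ha0 : φ a = 0 := by
      have := X_pow_dvd_iff.1 hd 0 (Nat.succ_pos n)
      rwa [coeff_map] at this
    set s₁ := s - C a * Z.map (Int.castRingHom A) with hs₁
    have hq : qExpansion 1 (f - ι a • E : ModularForm 𝒮ℒ k) = s₁.map ι := by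
      rw [FunLike.coe_sub, ModularForm.qExpansion_sub one_pos one_mem_strictPeriods_SL,
        FunLike.coe_smul,
        ModularForm.qExpansion_smul one_pos one_mem_strictPeriods_SL, hE, hs₁, map_sub, map_mul,
        map_toC, hs, map_C, smul_eq_C_mul]
    have hc : coeff 0 s₁ = 0 := by
      rw [hs₁, map_sub, coeff_C_mul, coeff_map, hZ, map_one, mul_one, sub_self]
    have hφ : s₁.map φ = s.map φ := by
      rw [hs₁, map_sub, map_mul, map_C, ha0, map_zero, zero_mul, sub_zero]
    obtain ⟨t, ht⟩ := X_dvd_iff.2 (coeff_zero_eq_constantCoeff_apply s₁ ▸ hc)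
    obtain ⟨v, hv⟩ := (hu.map (PowerSeries.map (Int.castRingHom A))).exists_right_inv
    have hcusp : (qExpansion 1 (f - ι a • E : ModularForm 𝒮ℒ k)).coeff 0 = 0 := by
      rw [hq, coeff_map, hc, map_zero]
    have hm := qExpansion_eq_qExpansion_discriminant_mul _ hcusp
    have hΔ := qExp_disc
    rw [CuspForm.coe_discriminant] at hΔ
    have hs2 : s₁ = DZ.map (Int.castRingHom A) * (v * t) := by
      rw [hD, map_mul, map_X, ht]
      linear_combination (-(X * t)) * hv
    rw [hq, hΔ, hs2, map_mul, map_toC] at hm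
    have hne : toC DZ ≠ 0 := by
      rw [hD, map_mul, toC, map_X]
      exact mul_ne_zero X_ne_zero (hu.map _).ne_zero
    have h3 := ih (k - 12) _ (v * t) (mul_left_cancel₀ hne hm) (by push_cast at hk; omega) (by
      rw [← hφ, ht, map_mul, map_X, pow_succ'] at hd
      rw [map_mul]
      obtain ⟨c, hc'⟩ := hd
      rw [mul_assoc] at hc'
      exact Dvd.dvd.mul_left ⟨c, X_mul_cancel hc'⟩ _)
    rw [← hφ, hs2, map_mul, h3, mul_zero]

end Vale.Agent.P022D.Pur
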