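import Vale.Agent.P022D.V.TrL
import Vale.Agent.P022D.Pur.St1
import Vale.Agent.P022.H29.L3.Sturm

/-!
P022D, purity: the Sturm bound for tuples, modulo a prime ideal of the ring of coefficients.
-/

set_option linter.all false

open UpperHalfPlane hiding I
open scoped MatrixGroups ModularForm

noncomputable section

namespace Vale.Agent.P022D.Pur

open Vale.Agent.P022D.V Vale.Agent.P022D.V.Tr Vale.Agent.P022.H218.L3

variable {O : Type} [CommRing O] [Co O] {M : ℕ}

theorem Vo_eq {R : Type} [CommRing R] {p : ℕ} (hp : p ≠ 0) (s : PowerSeries R) :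
    Vo p s = PowerSeries.expand p hp s := by
  ext n
  rw [PowerSeries.coeff_expand, Vo, PowerSeries.coeff_mk]

theorem hs_add {s t : PowerSeries ℂ} {f g : ℍ → ℂ} (h : HS M s f) (h' : HS M t g) :
    HS M (s + t) (f + g) := fun τ => by simpa [add_mul] using (h τ).add (h' τ)

theorem hs_zero : HS M 0 0 := fun τ => by simpa using hasSum_zero

theorem hs_one : HS M 1 1 := by
  have := hs_const (M := M) 1
  rwa [map_one] at this

theorem hs_sum {ι : Type*} (S : Finset ι) {s : ι → PowerSeries ℂ} {f : ι → ℍ → ℂ}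
    (h : ∀ i, HS M (s i) (f i)) : HS M (∑ i ∈ S, s i) (∑ i ∈ S, f i) := by
  classical
  induction S using Finset.induction_on with
  | empty => simpa using hs_zero
  | insert a S ha ih => rw [Finset.sum_insert ha, Finset.sum_insert ha]; exact hs_add (h a) ih

theorem hs_prod {ι : Type*} (S : Finset ι) {s : ι → PowerSeries ℂ} {f : ι → ℍ → ℂ}
    (h : ∀ i, HS M (s i) (f i)) : HS M (∏ i ∈ S, s i) (∏ i ∈ S, f i) := by
  classical
  induction S using Finset.induction_on with
  | empty => simpa using hs_one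
  | insert a S ha ih => rw [Finset.prod_insert ha, Finset.prod_insert ha]; exact hs_mul (h a) ih

theorem bdd_prod {ι : Type*} (S : Finset ι) {k : ℕ} {f : ι → ℍ → ℂ} (h : ∀ i, Bdd k (f i)) :
    Bdd ((k * S.card : ℕ) : ℤ) (∏ i ∈ S, f i) ∧
      ∀ γ : SL(2, ℤ), (∏ i ∈ S, f i) ∣[((k * S.card : ℕ) : ℤ)] γ = ∏ i ∈ S, f i ∣[(k : ℤ)] γ := by
  classical
  induction S using Finset.induction_on with
  | empty =>
    refine ⟨Bdd.const 1, fun γ => ?_⟩
    simpa using ModularForm.is_invariant_one γ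
  | insert a S ha ih =>
    have e : ((k * (insert a S).card : ℕ) : ℤ) = (k : ℤ) + ((k * S.card : ℕ) : ℤ) := by
      rw [Finset.card_insert_of_notMem ha]; push_cast; ring
    rw [Finset.prod_insert ha, e]
    refine ⟨(h a).mul ih.1, fun γ => ?_⟩
    rw [ModularForm.mul_slash_SL2, ih.2, Finset.prod_insert ha]

theorem bdd_sum {ι : Type*} (S : Finset ι) {k : ℤ} {f : ι → ℍ → ℂ} (h : ∀ i ∈ S, Bdd k (f i)) :
    Bdd k (∑ i ∈ S, f i) := by
  refine Finset.sum_induction f (Bdd k) (fun _ _ => Bdd.add) ⟨Hol.zero_mem, fun γ => ?_⟩ h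
  rw [SlashAction.zero_slash]
  exact Filter.const_boundedAtFilter _ _

/-- a form of level one whose expansion in `q ^ (1 / M)` vanishes to high order modulo `φ` -/
theorem sturm_top (hM : 0 < M) {κ : Type} [CommRing κ] (φ : AA O →+* κ) {k N : ℕ} {f : ℍ → ℂ}
    (hf : IsMF ⊤ k f) {s : PowerSeries (AA O)} (hs : HS M (s.map (av O)) f) (hk : k * M < 12 * N)
    (hd : PowerSeries.X ^ N ∣ s.map φ) : s.map φ = 0 := by
  have h1 : s.map (av O) = Vo M (qExpansion 1 f) := hs_unique hM hs (hs_up hM (hs_top hf))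
  have h2 : (Uo M s).map (av O) = qExpansion 1 f := by
    ext j
    have := congrArg (PowerSeries.coeff (M * j)) h1
    rw [Vo, PowerSeries.coeff_mk, if_pos (Dvd.intro j rfl), Nat.mul_div_cancel_left _ hM] at this
    rw [← this, PowerSeries.coeff_map, PowerSeries.coeff_map, Uo, PowerSeries.coeff_mk]
  have h3 : s = Vo M (Uo M s) := by
    apply PowerSeries.map_injective (av O) av_inj
    rw [map_Vo, h2, h1]
  have h4 := sturm_one (av O) av_inj φ (k / 12 + 1) k (P022.H29.L3.toML hf) (Uo M s) h2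
    (by omega) (by
      rw [PowerSeries.X_pow_dvd_iff] at hd ⊢
      intro j hj
      have h5 : 12 * j * M ≤ k * M := Nat.mul_le_mul_right _ (by omega)
      have := hd (M * j) (by nlinarith)
      rw [PowerSeries.coeff_map] at this ⊢
      rwa [Uo, PowerSeries.coeff_mk])
  rw [h3, map_Vo, h4, Vo_eq hM.ne', map_zero]

/-- **Sturm bound for tuples** -/
theorem sturm_tuple' (hM : 0 < M) {κ : Type} [CommRing κ] [IsDomain κ] (φ : AA O →+* κ)
    {k N : ℕ} {w : FT M (AA O)} (hw : w ∈ L O M k) (hk : k * M < 12 * N)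
    (hd : ∀ g, PowerSeries.X ^ N ∣ (w g).map φ) (g₀ : GM M) : (w g₀).map φ = 0 := by
  classical
  have : NeZero M := ⟨hM.ne'⟩
  obtain ⟨⟨F, h1, h2⟩, -⟩ := hw
  let H := (rd M).range
  have : Fintype H := Fintype.ofFinite H
  by_contra hne
  let S : Finset H := Finset.univ.filter fun h => (w (h * g₀)).map φ ≠ 0
  have hS : 0 < S.card := Finset.card_pos.2 ⟨1, by simpa [S] using hne⟩
  let P := Finset.powersetCard S.card (Finset.univ : Finset H)
  have hP : ∀ T ∈ P, T.card = S.card := fun T hT => (Finset.mem_powersetCard.1 hT).2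
  have hf : IsMF ⊤ ((k * S.card : ℕ) : ℤ) (∑ T ∈ P, ∏ h ∈ T, F (h * g₀)) := by
    refine Bdd.isMF (bdd_sum P fun T hT => ?_) fun γ _ => ?_
    · rw [← hP T hT]
      exact (bdd_prod T fun h => h1.bdd _).1
    · rw [SlashAction.sum_slash]
      let c : H := ⟨rd M γ, γ, rfl⟩
      have e : ∀ h : H, F (h * g₀) ∣[(k : ℤ)] γ = F ((c⁻¹ * h : H) * g₀) := fun h => by
        rw [← h1.eqv γ ((c⁻¹ * h : H) * g₀)]
        congr 2
        simp [c, mul_assoc]
      refine Finset.sum_equiv (Equiv.mulLeft c⁻¹).finsetCongr (fun T => ?_) fun T hT => ?_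
      · simp [P, Finset.mem_powersetCard]
      · rw [← hP T hT, (bdd_prod T fun h => h1.bdd _).2, Equiv.finsetCongr_apply,
          Finset.prod_map]
        exact Finset.prod_congr rfl fun h _ => e h
  have hs : HS M ((∑ T ∈ P, ∏ h ∈ T, w (h * g₀)).map (av O)) (∑ T ∈ P, ∏ h ∈ T, F (h * g₀)) := by
    rw [map_sum]
    refine hs_sum P fun T => ?_
    rw [map_prod]
    exact hs_prod T fun h => h2 _
  have hv : (∑ T ∈ P, ∏ h ∈ T, w (h * g₀)).map φ = ∏ h ∈ S, (w (h * g₀)).map φ := by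
    rw [map_sum, Finset.sum_eq_single S, map_prod]
    · intro T hT hTS
      obtain ⟨h, h3, h4⟩ : ∃ h ∈ T, h ∉ S := by
        by_contra hc
        push Not at hc
        exact hTS (Finset.eq_of_subset_of_card_le hc (hP T hT).ge)
      rw [map_prod]
      exact Finset.prod_eq_zero h3 (by simpa [S] using h4)
    · intro h
      exact absurd (Finset.mem_powersetCard.2 ⟨Finset.subset_univ _, rfl⟩) h
  have h0 := sturm_top hM φ (N := N * S.card) hf hs
    (by rw [← mul_assoc, mul_right_comm]; exact Nat.mul_lt_mul_of_pos_right hk hS) (by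
      rw [hv, pow_mul, ← Finset.prod_const]
      exact Finset.prod_dvd_prod_of_dvd _ _ fun h _ => hd _)
  rw [hv] at h0
  obtain ⟨h, h3, h4⟩ := Finset.prod_eq_zero_iff.1 h0
  exact (Finset.mem_filter.1 h3).2 h4

theorem sturm_tuple (hM : 0 < M) {κ : Type} [CommRing κ] [IsDomain κ] (φ : AA O →+* κ)
    {k n : ℕ} {w : FT M (AA O)} (hw : w ∈ L O M k) (hk : k < 12 * n)
    (hd : ∀ g, PowerSeries.X ^ (M * n) ∣ (w g).map φ) (g₀ : GM M) : (w g₀).map φ = 0 :=
  sturm_tuple' hM φ hw (by nlinarith) hd g₀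

end Vale.Agent.P022D.Pur
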