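import Vale.Agent.P022D.Pur.AS

/-!
P022D, purity: the universal window estimate. In characteristic two
`(Y + H + H ^ 2) ^ (2 ^ i * m) - Y ^ (2 ^ i * m)` is a sum of monomials `Y ^ a * H ^ b` with
`3 * a + b ≤ 3 * 2 ^ i * m - 2 ^ i`.
-/

namespace Vale.Agent.P022D.Pur

variable {R : Type*} [CommRing R]

/-- sums of monomials of weight at most `N` -/
def Mon (Y H : R) (N : ℕ) : AddSubgroup R :=
  AddSubgroup.closure {x | ∃ a b : ℕ, 3 * a + b ≤ N ∧ x = Y ^ a * H ^ b}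

theorem Mon.mono (Y H : R) {N N' : ℕ} (h : N ≤ N') : Mon Y H N ≤ Mon Y H N' :=
  AddSubgroup.closure_mono fun _ ⟨a, b, h1, h2⟩ => ⟨a, b, h1.trans h, h2⟩

theorem Mon.mem (Y H : R) {N : ℕ} (a b : ℕ) (h : 3 * a + b ≤ N) : Y ^ a * H ^ b ∈ Mon Y H N :=
  AddSubgroup.subset_closure ⟨a, b, h, rfl⟩

theorem Mon.mul {Y H : R} {N N' : ℕ} {x y : R} (hx : x ∈ Mon Y H N) (hy : y ∈ Mon Y H N') :
    x * y ∈ Mon Y H (N + N') := by
  induction hx using AddSubgroup.closure_induction with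
  | mem x hx =>
    obtain ⟨a, b, h1, rfl⟩ := hx
    induction hy using AddSubgroup.closure_induction with
    | mem y hy =>
      obtain ⟨a', b', h1', rfl⟩ := hy
      have : Y ^ a * H ^ b * (Y ^ a' * H ^ b') = Y ^ (a + a') * H ^ (b + b') := by ring
      rw [this]
      exact Mon.mem Y H _ _ (by omega)
    | zero => rw [mul_zero]; exact zero_mem _
    | add y y' _ _ h h' => rw [mul_add]; exact add_mem h h'
    | neg y _ h => rw [mul_neg]; exact neg_mem h
  | zero => rw [zero_mul]; exact zero_mem _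
  | add x x' _ _ h h' => rw [add_mul]; exact add_mem h h'
  | neg x _ h => rw [neg_mul]; exact neg_mem h

theorem window_mon (h2 : (2 : R) = 0) (Y H : R) (i m : ℕ) :
    (Y + H + H ^ 2) ^ (2 ^ i * m) - Y ^ (2 ^ i * m) ∈ Mon Y H (3 * (2 ^ i * m) - 2 ^ i) := by
  have h1 := window_pow h2 Y _ H rfl i
  set P := 2 ^ i with hP
  have hD : H ^ P + H ^ 2 ^ (i + 1) ∈ Mon Y H (2 * P) := by
    refine add_mem ?_ ?_
    · simpa using Mon.mem Y H (N := 2 * P) 0 P (by omega)
    · simpa using Mon.mem Y H (N := 2 * P) 0 (2 ^ (i + 1)) (by rw [pow_succ]; omega)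
  have hY : ∀ n, Y ^ n ∈ Mon Y H (3 * n) := fun n => by
    simpa using Mon.mem Y H (N := 3 * n) n 0 (by omega)
  rw [pow_mul, h1, add_assoc]
  induction m with
  | zero => simp
  | succ m ih =>
    have e : (Y ^ P + (H ^ P + H ^ 2 ^ (i + 1))) ^ (m + 1) - Y ^ (P * (m + 1)) =
        ((Y ^ P + (H ^ P + H ^ 2 ^ (i + 1))) ^ m - Y ^ (P * m)) *
          (Y ^ P + (H ^ P + H ^ 2 ^ (i + 1))) + Y ^ (P * m) * (H ^ P + H ^ 2 ^ (i + 1)) := by
      ring
    rw [e]
    have e1 : P * (m + 1) = P * m + P := by ring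
    refine add_mem ?_ (Mon.mono Y H (by omega) (Mon.mul (hY _) hD))
    rcases Nat.eq_zero_or_pos m with rfl | hm
    · simp
    · have e2 : P ≤ P * m := Nat.le_mul_of_pos_right _ hm
      exact Mon.mono Y H (by omega)
        (Mon.mul ih (add_mem (hY P) (Mon.mono Y H (by omega) hD)))

end Vale.Agent.P022D.Pur
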