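import Vale.Agent.P022D.V.Defs2
import Vale.Agent.P022D.V.TrY
import Vale.Agent.P022D.Pur.St2
import Vale.Agent.P022D.Pur.Win

/-!
P022D, purity: the twisted Hecke operators `U (h₁ ^ j f) + p ^ i h₂ ^ j V f` are integral of
weight raised by `4 j`.
-/

set_option linter.all false

noncomputable section

namespace Vale.Agent.P022D.Pur

open Vale.Agent.P022D.V Vale.Agent.P022D.V.Tr Vale.Agent.P022.H790.A

section formal

variable {M : ℕ} {S R : Type} [CommRing S] [CommRing R] [Algebra S R]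

/-- a constant tuple -/
def kt (M : ℕ) {R : Type} [CommRing R] : PowerSeries R →+* FT M R := Pi.constRingHom _ _

theorem kt_apply (s : PowerSeries R) (g : GM M) : kt M s g = s := rfl

theorem Uo_mul {p : ℕ} (hp : p ≠ 0) (a b : PowerSeries R) :
    Uo p (PowerSeries.expand p hp a * b) = a * Uo p b := by
  ext n
  rw [Uo, PowerSeries.coeff_mk, PowerSeries.coeff_mul, PowerSeries.coeff_mul]
  symm
  refine Finset.sum_of_injOn (fun x : ℕ × ℕ => (p * x.1, p * x.2)) ?_ ?_ ?_ ?_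
  · rintro x - y - h
    simp only [Prod.mk.injEq] at h
    exact Prod.ext (Nat.eq_of_mul_eq_mul_left (Nat.pos_of_ne_zero hp) h.1)
      (Nat.eq_of_mul_eq_mul_left (Nat.pos_of_ne_zero hp) h.2)
  · intro x hx
    rw [Finset.mem_coe, Finset.HasAntidiagonal.mem_antidiagonal] at hx ⊢
    rw [← mul_add, hx]
  · intro x hx hx'
    rw [PowerSeries.coeff_expand_of_not_dvd, zero_mul]
    rintro ⟨c, hc⟩
    rw [Finset.HasAntidiagonal.mem_antidiagonal] at hx
    obtain ⟨d, hd⟩ : p ∣ x.2 := (Nat.dvd_add_right ⟨c, hc⟩).1 ⟨n, hx⟩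
    refine hx' ⟨(c, d), ?_, Prod.ext hc.symm hd.symm⟩
    rw [Finset.mem_coe, Finset.HasAntidiagonal.mem_antidiagonal]
    refine Nat.eq_of_mul_eq_mul_left (Nat.pos_of_ne_zero hp) ?_
    rw [mul_add, ← hc, ← hd, hx]
  · intro x _
    rw [Uo, PowerSeries.coeff_mk, PowerSeries.coeff_expand_mul]

theorem Uf_kt {p : ℕ} (hp : p ≠ 0) (u : (ZMod M)ˣ) (a : PowerSeries R) (w : FT M R) :
    Uf S R p u (kt M (PowerSeries.expand p hp a) * w) = kt M a * Uf S R p u w :=
  funext fun _ => Uo_mul hp a _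

theorem Vf_kt {p : ℕ} (hp : p ≠ 0) (u : (ZMod M)ˣ) (a : PowerSeries R) (w : FT M R) :
    Vf S R p u (kt M a * w) = kt M (PowerSeries.expand p hp a) * Vf S R p u w := by
  funext g
  change Vo p (a * _) = PowerSeries.expand p hp a * Vo p _
  rw [Vo_eq hp, Vo_eq hp, map_mul]

theorem ep_kt (k : ℕ) (a : PowerSeries R) (w : FT M R) :
    ep S R M k (kt M a * w) = kt M a * ep S R M k w := by
  simp only [ep, LinearMap.smul_apply, AlgHom.toLinearMap_apply, map_mul, mul_smul_comm]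
  rfl

theorem pw_kt (i p : ℕ) (a : PowerSeries R) (w : FT M R) :
    pw S R M i p (kt M a * w) = kt M a * pw S R M i p w := by
  simp only [pw, LinearMap.add_apply, LinearMap.smul_apply, LinearMap.sub_apply,
    Module.End.one_apply, ep_kt, mul_add, mul_smul_comm, mul_sub]

theorem ep_Uf (k p : ℕ) (u : (ZMod M)ˣ) (w : FT M R) :
    ep S R M k (Uf S R p u w) = Uf S R p u (ep S R M k w) := by
  simp only [ep, LinearMap.smul_apply, AlgHom.toLinearMap_apply, map_zsmul]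
  congr 1
  funext g
  change Uo p (w (dg 1 u * (g * _))) = Uo p (w (dg 1 u * g * _))
  rw [mul_assoc]

theorem ep_Vf (k p : ℕ) (u : (ZMod M)ˣ) (w : FT M R) :
    ep S R M k (Vf S R p u w) = Vf S R p u (ep S R M k w) := by
  simp only [ep, LinearMap.smul_apply, AlgHom.toLinearMap_apply, map_zsmul]
  congr 1
  funext g
  change Vo p (w (dg u 1 * (g * _))) = Vo p (w (dg u 1 * g * _))
  rw [mul_assoc]

theorem ep_ep (k : ℕ) (w : FT M R) : ep S R M k (ep S R M k w) = w := by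
  simp only [ep, LinearMap.smul_apply, AlgHom.toLinearMap_apply, map_zsmul, smul_smul]
  rw [← mul_pow, ← AlgHom.mul_apply, ← map_mul, dg_mul]
  simp [dg_one]

theorem ep_add (k j : ℕ) : ep S R M (k + 2 * j) = ep S R M k := by
  simp [ep, pow_add, pow_mul]

theorem pw_plus (i p : ℕ) (w : FT M R) :
    (1 + ep S R M (i + 1)) (pw S R M i p w) = (1 + ep S R M (i + 1)) w := by
  simp only [pw, LinearMap.add_apply, LinearMap.smul_apply, LinearMap.sub_apply,
    Module.End.one_apply, map_add, map_nsmul, map_sub, ep_ep, smul_sub]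
  abel

theorem pw_minus (i : ℕ) {p : ℕ} (hp : Odd p) (w : FT M R) :
    (1 - ep S R M (i + 1)) (pw S R M i p w) = p • (1 - ep S R M (i + 1)) w := by
  obtain ⟨c, rfl⟩ := hp
  have e : (2 * c + 1 - 1) / 2 = c := by omega
  simp only [pw, e, LinearMap.add_apply, LinearMap.smul_apply, LinearMap.sub_apply,
    Module.End.one_apply, map_add, map_nsmul, map_sub, ep_ep, smul_sub, add_smul, mul_smul,
    two_smul, one_smul]
  abel

/-- `U (a f) + p ^ i b V f` -/
def Bo (S : Type) [CommRing S] [Algebra S R] (i p : ℕ) (u : (ZMod M)ˣ) (a b : PowerSeries R)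
    (w : FT M R) : FT M R :=
  Uf S R p u (kt M a * w) + (p ^ i : ℕ) • (kt M b * Vf S R p u w)

/-- the same on two weights -/
def Bt (S : Type) [CommRing S] [Algebra S R] (i p : ℕ) (u : (ZMod M)ˣ) (a b : PowerSeries R)
    (w : FT M R) : FT M R :=
  Uf S R p u (kt M a * w) + (p ^ i : ℕ) • (kt M b * Vf S R p u (pw S R M i p w))

theorem Bt_plus (i p : ℕ) (u : (ZMod M)ˣ) (a b : PowerSeries R) (w : FT M R) :
    (1 + ep S R M (i + 1)) (Bt S i p u a b w) = Bo S i p u a b ((1 + ep S R M (i + 1)) w) := by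
  have h := pw_plus (S := S) i p w
  rw [Bo]
  conv_rhs => rw [← congrArg (Vf S R p u) h]
  simp only [Bt, LinearMap.add_apply, Module.End.one_apply, map_add, map_nsmul, ep_kt, ep_Uf,
    ep_Vf, mul_add, smul_add]

theorem Bt_minus (i : ℕ) {p : ℕ} (hp : Odd p) (u : (ZMod M)ˣ) (a b : PowerSeries R)
    (w : FT M R) : (1 - ep S R M (i + 1)) (Bt S i p u a b w) =
      Bo S (i + 1) p u a b ((1 - ep S R M (i + 1)) w) := by
  have h := pw_minus (S := S) i hp w
  rw [Bo, pow_succ, mul_smul, ← mul_smul_comm p, ← map_nsmul, ← h]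
  simp only [Bt, LinearMap.sub_apply, Module.End.one_apply, map_add, map_sub, map_nsmul, ep_kt,
    ep_Uf, ep_Vf, mul_sub, smul_sub]

/-- an integral series in `q` as a series in `q ^ (1 / M)` -/
def cx (R : Type) [CommRing R] (M : ℕ) [NeZero M] : PowerSeries ℤ →+* PowerSeries R :=
  (PowerSeries.expand M (NeZero.ne M)).toRingHom.comp (PowerSeries.map (Int.castRingHom R))

theorem kt_cx [NeZero M] (s : PowerSeries ℤ) :
    kt M (cx R M s) = ct M (s.map (Int.castRingHom R)) :=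
  funext fun _ => (Vo_eq (NeZero.ne M) _).symm

/-- `(E₄ - V E₄) / 16` -/
def h1 (R : Type) [CommRing R] (M : ℕ) [NeZero M] {p : ℕ} (hp : p ≠ 0) : PowerSeries R :=
  15 * (cx R M (sg 3) - PowerSeries.expand p hp (cx R M (sg 3)))

/-- `(p ^ 4 V E₄ - E₄) / 16` -/
def h2 (R : Type) [CommRing R] (M : ℕ) [NeZero M] {p : ℕ} (hp : p ≠ 0) : PowerSeries R :=
  (((p ^ 4 - 1) / 16 : ℕ) : PowerSeries R) +
    15 * ((p : PowerSeries R) ^ 4 * PowerSeries.expand p hp (cx R M (sg 3)) - cx R M (sg 3))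

theorem h1_eq [NeZero M] {p : ℕ} (hp : p ≠ 0) :
    cx R M E4Z - PowerSeries.expand p hp (cx R M E4Z) = 16 * h1 R M hp := by
  simp only [E4Z, h1, map_add, map_mul, map_one, map_ofNat]
  ring

theorem pow_four {p : ℕ} (hp : Odd p) : p ^ 4 = 16 * ((p ^ 4 - 1) / 16) + 1 := by
  have h : p ^ 4 % 16 = 1 := by
    obtain ⟨c, rfl⟩ := hp
    have : (2 * c + 1) % 16 = (2 * (c % 8) + 1) % 16 := by omega
    rw [Nat.pow_mod, this]
    have h8 : c % 8 < 8 := Nat.mod_lt _ (by norm_num)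
    generalize c % 8 = r at h8
    interval_cases r <;> rfl
  omega

theorem h2_eq [NeZero M] {p : ℕ} (hp : p ≠ 0) (ho : Odd p) :
    (p : PowerSeries R) ^ 4 * PowerSeries.expand p hp (cx R M E4Z) - cx R M E4Z =
      16 * h2 R M hp := by
  have h : (p : PowerSeries R) ^ 4 = 16 * (((p ^ 4 - 1) / 16 : ℕ) : PowerSeries R) + 1 := by
    exact_mod_cast congrArg (Nat.cast : ℕ → PowerSeries R) (pow_four ho)
  simp only [E4Z, h2, map_add, map_mul, map_one, map_ofNat]
  linear_combination h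

end formal

variable {O : Type} [CommRing O] [Co O] {M : ℕ} [NeZero M]

theorem E4_mem : kt M (cx (AA O) M E4Z) ∈ L O M 4 := by
  rw [kt_cx, ← ET_eq]
  exact E_mem

theorem D12_mem : kt M (cx (AA O) M DZ) ∈ L O M 12 := by
  rw [kt_cx]
  exact D_mem

theorem Bo_big {p : ℕ} (hp : p ≠ 0) {u : (ZMod M)ˣ}
    (hT : ∀ i, ∀ w ∈ L O M (i + 1), Tf O (AA O) i p u w ∈ L O M (i + 1)) (j : ℕ) :
    ∀ i, ∀ w ∈ L O M (i + 1), Bo O i p u
      ((cx (AA O) M E4Z - PowerSeries.expand p hp (cx (AA O) M E4Z)) ^ j)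
      (((p : PowerSeries (AA O)) ^ 4 * PowerSeries.expand p hp (cx (AA O) M E4Z) -
        cx (AA O) M E4Z) ^ j) w ∈ L O M (i + 1 + 4 * j) := by
  induction j with
  | zero =>
    intro i w hw
    have := hT i w hw
    rw [Tf, LinearMap.add_apply, LinearMap.smul_apply] at this
    rwa [Bo, pow_zero, pow_zero, map_one, one_mul, one_mul]
  | succ j ih =>
    intro i w hw
    set e := cx (AA O) M E4Z with he
    have a1 := ih (i + 4) (kt M e * w) (by
      have := L_mul E4_mem hw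
      rwa [show 4 + (i + 1) = i + 4 + 1 by ring] at this)
    have a2 := L_mul E4_mem (ih i w hw)
    rw [show i + 4 + 1 + 4 * j = i + 1 + 4 * (j + 1) by ring] at a1
    rw [show 4 + (i + 1 + 4 * j) = i + 1 + 4 * (j + 1) by ring] at a2
    have a3 := sub_mem a1 a2
    refine (congrArg (· ∈ L O M (i + 1 + 4 * (j + 1))) ?_).mp a3
    have b1 : kt M ((e - PowerSeries.expand p hp e) ^ (j + 1)) * w =
        kt M ((e - PowerSeries.expand p hp e) ^ j) * (kt M e * w) -
          kt M (PowerSeries.expand p hp e) * (kt M ((e - PowerSeries.expand p hp e) ^ j) * w) := by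
      simp only [pow_succ, map_mul, map_sub]
      ring
    rw [Bo, Bo, Bo, b1, map_sub, Uf_kt, Vf_kt hp, ← he]
    simp only [pow_succ, pow_add, map_mul, map_sub, map_natCast, map_pow, nsmul_eq_mul,
      Nat.cast_mul, Nat.cast_pow, pow_zero, one_mul]
    ring

theorem Bo_mem {p : ℕ} (hp : p ≠ 0) (ho : Odd p) {u : (ZMod M)ˣ}
    (hT : ∀ i, ∀ w ∈ L O M (i + 1), Tf O (AA O) i p u w ∈ L O M (i + 1)) (j i : ℕ)
    {w : FT M (AA O)} (hw : w ∈ L O M (i + 1)) :
    Bo O i p u (h1 (AA O) M hp ^ j) (h2 (AA O) M hp ^ j) w ∈ L O M (i + 1 + 4 * j) := by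
  refine L_sat (NeZero.pos M) (n := 16 ^ j) (by positivity) ?_
  have h := Bo_big hp hT j i w hw
  rw [h1_eq, h2_eq hp ho] at h
  refine (congrArg (· ∈ L O M (i + 1 + 4 * j)) ?_).mp h
  have b1 : kt M ((16 * h1 (AA O) M hp) ^ j) * w =
      (16 ^ j : ℕ) • (kt M (h1 (AA O) M hp ^ j) * w) := by
    simp only [mul_pow, map_mul, map_pow, map_ofNat, nsmul_eq_mul, Nat.cast_pow, Nat.cast_ofNat]
    ring
  rw [Bo, Bo, b1, map_nsmul]
  simp only [mul_pow, map_mul, map_pow, map_ofNat, nsmul_eq_mul, Nat.cast_pow, Nat.cast_ofNat]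
  ring

theorem mem_L2 {k : ℕ} {w : FT M (AA O)} : w ∈ L2 O M k ↔
    (1 + ep O (AA O) M k) w ∈ L O M k ∧ (1 - ep O (AA O) M k) w ∈ L O M (k + 1) := Iff.rfl

theorem Bt_mem {p : ℕ} (hp : p ≠ 0) (ho : Odd p) {u : (ZMod M)ˣ}
    (hT : ∀ i, ∀ w ∈ L O M (i + 1), Tf O (AA O) i p u w ∈ L O M (i + 1)) (j i : ℕ)
    {w : FT M (AA O)} (hw : w ∈ L2 O M (i + 1)) :
    Bt O i p u (h1 (AA O) M hp ^ j) (h2 (AA O) M hp ^ j) w ∈ L2 O M (i + 1 + 4 * j) := by
  rw [mem_L2, show 4 * j = 2 * (2 * j) by ring, ep_add, Bt_plus, Bt_minus i ho,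
    show 2 * (2 * j) = 4 * j by ring]
  refine ⟨Bo_mem hp ho hT j i hw.1, ?_⟩
  rw [show i + 1 + 4 * j + 1 = i + 1 + 1 + 4 * j by ring]
  exact Bo_mem hp ho hT j (i + 1) hw.2

/-- products with constant tuples of even weight -/
theorem L2_kt {k j : ℕ} {a : PowerSeries (AA O)} (ha : kt M a ∈ L O M (2 * j))
    {w : FT M (AA O)} (hw : w ∈ L2 O M k) : kt M a * w ∈ L2 O M (k + 2 * j) := by
  rw [mem_L2, ep_add]
  simp only [LinearMap.add_apply, LinearMap.sub_apply, Module.End.one_apply, ep_kt, ← mul_add,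
    ← mul_sub]
  refine ⟨?_, ?_⟩
  · rw [add_comm k]
    exact L_mul ha hw.1
  · rw [show k + 2 * j + 1 = 2 * j + (k + 1) by ring]
    exact L_mul ha hw.2

end Vale.Agent.P022D.Pur
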