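import Vale.Agent.P022.H790.A1

/-!
P022D, purity: with `x = Σ σ₃(n) qⁿ` one has `E₄ = 1 + 240 x` and `Δ = x + x ^ 2` modulo two.
-/

namespace Vale.Agent.P022D.Pur

open PowerSeries Vale.Agent.P022.H790.A

theorem coeff_red_sg3 (n : ℕ) : coeff n (red (sg 3)) = sd n := by
  rw [red, coeff_map, sg, coeff_mk, map_sum, sd]
  refine Finset.sum_congr rfl fun d _ => ?_
  have h : ∀ x : ZMod 2, x ^ 3 = x := by decide
  simp [h]

theorem exists_half {Z : PowerSeries ℤ} (h : red Z = 0) : ∃ W : PowerSeries ℤ, Z = 2 * W := by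
  refine ⟨PowerSeries.mk fun n => coeff n Z / 2, ?_⟩
  ext n
  have h1 := congrArg (coeff n) h
  rw [red, coeff_map, map_zero, eq_intCast, ZMod.intCast_zmod_eq_zero_iff_dvd] at h1
  rw [show (2 : PowerSeries ℤ) = PowerSeries.C (2 : ℤ) by rfl, coeff_C_mul, coeff_mk]
  exact (Int.mul_ediv_cancel' (by exact_mod_cast h1)).symm

/-- `Δ = x + x ^ 2` modulo two -/
theorem DZ_eq : ∃ W : PowerSeries ℤ, DZ = sg 3 + sg 3 ^ 2 + 2 * W := by
  have h3 : red gs = red (sg 3) := by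
    ext n
    rw [coeff_red_gs, coeff_red_sg3]
  have h5 : red (sg 5) = red (sg 3) := by
    ext n
    rw [coeff_red_sg, coeff_red_sg3]
  obtain ⟨W, hW⟩ := exists_half (Z := gs - sg 3 + (sg 5 ^ 2 - sg 3 ^ 2)) (by
    rw [map_add, map_sub, map_sub, map_pow, map_pow, h3, h5]
    ring)
  refine ⟨W + 50 * sg 3 ^ 2 + 4000 * sg 3 ^ 3 - 74 * sg 5 ^ 2, ?_⟩
  unfold DZ
  linear_combination hW

/-- the window identity in any ring of characteristic two: two images of the integral series -/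
theorem window_of_hom {R : Type*} [CommRing R] (h2 : (2 : R) = 0)
    (φ ψ : PowerSeries ℤ →+* R) :
    φ DZ = ψ DZ + (φ (sg 3) - ψ (sg 3)) + (φ (sg 3) - ψ (sg 3)) ^ 2 := by
  obtain ⟨W, hW⟩ := DZ_eq
  have h1 := congrArg φ hW
  have h3 := congrArg ψ hW
  simp only [map_add, map_mul, map_pow, map_ofNat] at h1 h3
  rw [h1, h3]
  linear_combination (φ W - ψ W - ψ (sg 3) ^ 2 + φ (sg 3) * ψ (sg 3)) * h2

/-- powers of the window identity -/
theorem window_pow {R : Type*} [CommRing R] (h2 : (2 : R) = 0) (y y' h : R)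
    (hy : y' = y + h + h ^ 2) (i : ℕ) :
    y' ^ 2 ^ i = y ^ 2 ^ i + h ^ 2 ^ i + h ^ 2 ^ (i + 1) := by
  induction i with
  | zero => simpa using hy
  | succ i ih =>
    rw [pow_succ 2 i, pow_mul, ih, pow_mul, pow_mul, pow_succ 2 (i + 1), pow_mul h (2 ^ (i + 1)),
      pow_succ 2 i, pow_mul h (2 ^ i)]
    linear_combination (y ^ 2 ^ i * h ^ 2 ^ i + y ^ 2 ^ i * (h ^ 2 ^ i) ^ 2 +
      h ^ 2 ^ i * (h ^ 2 ^ i) ^ 2) * h2

end Vale.Agent.P022D.Pur
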