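import Mathlib

/-!
P022D, purity (abstract form). Filtered spaces with a shift `z`; maps that commute with the
powers `z ^ (2 ^ i * m)` modulo a window of length `2 ^ i`. Such a map whose image has a locally
nilpotent endomorphism with finite dimensional kernel is zero.
-/

namespace Vale.Agent.P022D.Pur

/-- a filtered space with an endomorphism raising the filtration by `d` -/
structure FZ (F V : Type*) [CommRing F] [AddCommGroup V] [Module F V] (d : ℕ) where
  fil : ℕ → Submodule F V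
  z : Module.End F V
  mono : Monotone fil
  exh : ∀ v, ∃ n, v ∈ fil n
  step : ∀ n v, v ∈ fil n → z v ∈ fil (n + d)

section ring

variable {F : Type*} [CommRing F] {V V' V'' : Type*} [AddCommGroup V] [Module F V]
  [AddCommGroup V'] [Module F V'] [AddCommGroup V''] [Module F V''] {d : ℕ}

theorem FZ.pow_mem (A : FZ F V d) (n w : ℕ) {v : V} (hv : v ∈ A.fil w) :
    (A.z ^ n) v ∈ A.fil (w + d * n) := by
  induction n with
  | zero => simpa using hv
  | succ n ih =>
    rw [pow_succ', Module.End.mul_apply, Nat.mul_succ, ← add_assoc]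
    exact A.step _ _ ih

/-- `z ^ n h` has filtration at least `d * n` unless `h = 0` -/
def FZ.Strict (A : FZ F V d) : Prop :=
  ∀ (n : ℕ) (h : V), 0 < n → (A.z ^ n) h ∈ A.fil (d * n - 1) → h = 0

/-- `C` raises the filtration by at most `c` and commutes with `z ^ (2 ^ i * m)` modulo a window
of length `2 ^ i` -/
def Appr (A : FZ F V d) (B : FZ F V' d) (c : ℕ) (C : V →ₗ[F] V') : Prop :=
  (∀ w f, f ∈ A.fil w → C f ∈ B.fil (w + c)) ∧
    ∀ i m w f, f ∈ A.fil w →
      C ((A.z ^ (2 ^ i * m)) f) - (B.z ^ (2 ^ i * m)) (C f) ∈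
        B.fil (w + c + (d * (2 ^ i * m) - 2 ^ i))

variable {A : FZ F V d} {B : FZ F V' d} {D : FZ F V'' d}

theorem Appr.id (A : FZ F V d) : Appr A A 0 LinearMap.id :=
  ⟨fun _ _ h => h, fun _ _ _ _ _ => by simp⟩

theorem Appr.zero (A : FZ F V d) (B : FZ F V' d) (c : ℕ) : Appr A B c 0 :=
  ⟨fun _ _ _ => by simp, fun _ _ _ _ _ => by simp⟩

theorem Appr.mono {c c' : ℕ} {C : V →ₗ[F] V'} (h : Appr A B c C) (hc : c ≤ c') :
    Appr A B c' C :=
  ⟨fun w f hf => B.mono (by omega) (h.1 w f hf),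
    fun i m w f hf => B.mono (by omega) (h.2 i m w f hf)⟩

theorem Appr.add {c : ℕ} {C C' : V →ₗ[F] V'} (h : Appr A B c C) (h' : Appr A B c C') :
    Appr A B c (C + C') := by
  refine ⟨fun w f hf => add_mem (h.1 w f hf) (h'.1 w f hf), fun i m w f hf => ?_⟩
  have := add_mem (h.2 i m w f hf) (h'.2 i m w f hf)
  simp only [LinearMap.add_apply, map_add]
  rwa [sub_add_sub_comm] at this

theorem Appr.smul {c : ℕ} {C : V →ₗ[F] V'} (h : Appr A B c C) (a : F) :
    Appr A B c (a • C) := by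
  refine ⟨fun w f hf => Submodule.smul_mem _ a (h.1 w f hf), fun i m w f hf => ?_⟩
  have := Submodule.smul_mem _ a (h.2 i m w f hf)
  simp only [LinearMap.smul_apply, map_smul]
  rwa [smul_sub] at this

theorem Appr.sum {ι : Type*} (s : Finset ι) {c : ℕ} {C : ι → V →ₗ[F] V'}
    (h : ∀ i ∈ s, Appr A B c (C i)) : Appr A B c (∑ i ∈ s, C i) :=
  Finset.sum_induction C (Appr A B c) (fun _ _ => Appr.add) (Appr.zero A B c) h

theorem Appr.comp {c c' : ℕ} {C : V' →ₗ[F] V''} {C' : V →ₗ[F] V'} (h : Appr B D c C)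
    (h' : Appr A B c' C') : Appr A D (c' + c) (C ∘ₗ C') := by
  refine ⟨fun w f hf => ?_, fun i m w f hf => ?_⟩
  · rw [← add_assoc]; exact h.1 _ _ (h'.1 w f hf)
  · have h1 := h.1 _ _ (h'.2 i m w f hf)
    have h2 := h.2 i m _ _ (h'.1 w f hf)
    rw [map_sub] at h1
    have h3 := add_mem (D.mono (show _ ≤ w + (c' + c) + (d * (2 ^ i * m) - 2 ^ i) by omega) h1)
      (D.mono (show _ ≤ w + (c' + c) + (d * (2 ^ i * m) - 2 ^ i) by omega) h2)
    rwa [sub_add_sub_cancel] at h3

/-- a map that agrees on every step of the filtration with an approximable map -/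
theorem Appr.limit {c : ℕ} {C : V →ₗ[F] V'}
    (h : ∀ w, ∃ C' : V →ₗ[F] V', Appr A B c C' ∧ ∀ f ∈ A.fil w, C f = C' f) :
    Appr A B c C := by
  refine ⟨fun w f hf => ?_, fun i m w f hf => ?_⟩
  · obtain ⟨C', h1, h2⟩ := h w
    rw [h2 f hf]; exact h1.1 w f hf
  · obtain ⟨C', h1, h2⟩ := h (w + d * (2 ^ i * m))
    rw [h2 f (A.mono (by omega) hf), h2 _ (A.pow_mem _ _ hf)]
    exact h1.2 i m w f hf

/-- the algebra generated by approximable endomorphisms consists of approximable ones -/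
theorem Appr.adjoin {S : Set (Module.End F V)} (hS : ∀ C ∈ S, Appr A A 0 C)
    {C : Module.End F V} (hC : C ∈ Algebra.adjoin F S) : Appr A A 0 C := by
  induction hC using Algebra.adjoin_induction with
  | mem x hx => exact hS x hx
  | algebraMap r =>
    rw [Algebra.algebraMap_eq_smul_one]
    exact (Appr.id A).smul r
  | add x y _ _ hx hy => exact hx.add hy
  | mul x y _ _ hx hy => exact hx.comp hy

end ring

variable {F : Type*} [Field F] {V V' : Type*} [AddCommGroup V] [Module F V]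
  [AddCommGroup V'] [Module F V'] {d : ℕ} {A : FZ F V d} {B : FZ F V' d}

theorem FZ.exists_le (A : FZ F V d) (N : Submodule F V) [FiniteDimensional F N] :
    ∃ w, N ≤ A.fil w := by
  obtain ⟨s, hs⟩ := (Submodule.fg_iff_finiteDimensional N).2 inferInstance
  choose n hn using A.exh
  refine ⟨s.sup n, ?_⟩
  rw [← hs, Submodule.span_le]
  intro v hv
  exact A.mono (Finset.le_sup (f := n) hv) (hn v)

theorem finrank_comap_le (s : Module.End F V) (U W : Submodule F V) [FiniteDimensional F W]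
    [FiniteDimensional F (LinearMap.ker s ⊓ U : Submodule F V)] :
    FiniteDimensional F (U ⊓ W.comap s : Submodule F V) ∧
      Module.finrank F (U ⊓ W.comap s : Submodule F V) ≤
        Module.finrank F W + Module.finrank F (LinearMap.ker s ⊓ U : Submodule F V) := by
  set K : Submodule F V := U ⊓ W.comap s with hK
  let φ : K →ₗ[F] W := s.restrict (fun x hx => hx.2)
  let ψ : LinearMap.ker φ →ₗ[F] (LinearMap.ker s ⊓ U : Submodule F V) :=
    LinearMap.codRestrict _ (K.subtype ∘ₗ (LinearMap.ker φ).subtype) (fun x => by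
      refine ⟨?_, x.1.2.1⟩
      have := congrArg Subtype.val (LinearMap.mem_ker.1 x.2)
      exact this)
  have hψ : Function.Injective ψ := by
    intro x y hxy
    have := congrArg Subtype.val hxy
    exact Subtype.ext (Subtype.ext this)
  have : FiniteDimensional F (LinearMap.ker φ) := FiniteDimensional.of_injective ψ hψ
  have : FiniteDimensional F K := by
    have : FiniteDimensional F (K ⧸ LinearMap.ker φ) :=
      LinearEquiv.finiteDimensional φ.quotKerEquivRange.symm
    exact Module.Finite.of_submodule_quotient (LinearMap.ker φ)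
  refine ⟨this, ?_⟩
  rw [← φ.finrank_range_add_finrank_ker]
  exact add_le_add (Submodule.finrank_le _) (LinearMap.finrank_le_finrank_of_injective hψ)

/-- **Purity, abstract form.** -/
theorem eq_zero_of_appr' (hd : 0 < d) (hB : B.Strict) (hfin : ∀ n, FiniteDimensional F (B.fil n))
    {c : ℕ} {τ : V →ₗ[F] V'} (hτ : Appr A B c τ) {s : Module.End F V'}
    (hs : ∀ w, ∃ C : Module.End F V', Appr B B 0 C ∧
      ∀ u ∈ LinearMap.range τ, u ∈ B.fil w → s u = C u)
    (hst : ∀ u ∈ LinearMap.range τ, s u ∈ LinearMap.range τ)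
    (hnil : ∀ u ∈ LinearMap.range τ, ∃ k : ℕ, (s ^ k) u = 0)
    [FiniteDimensional F (LinearMap.ker s ⊓ LinearMap.range τ : Submodule F V')] : τ = 0 := by
  classical
  have hs1 : ∀ w, ∀ u ∈ LinearMap.range τ, u ∈ B.fil w → s u ∈ B.fil w := fun w u h1 h2 => by
    obtain ⟨C, hC, hC'⟩ := hs w
    rw [hC' u h1 h2]
    exact hC.1 w u h2
  by_contra hne
  obtain ⟨g₀, hg₀⟩ : ∃ g, τ g ≠ 0 := by
    by_contra h
    push Not at h
    exact hne (LinearMap.ext h)
  set U := LinearMap.range τ with hU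
  set N : Submodule F V' := LinearMap.ker s ⊓ U with hN
  obtain ⟨σ₀, hσ₀⟩ := τ.rangeRestrict.exists_rightInverse_of_surjective τ.range_rangeRestrict
  let σ : N →ₗ[F] V := σ₀ ∘ₗ Submodule.inclusion inf_le_right
  have hσ : ∀ u : N, τ (σ u) = u := fun u => by
    have := congrArg Subtype.val (LinearMap.congr_fun hσ₀ (Submodule.inclusion inf_le_right u))
    exact this
  obtain ⟨w₁, hw₁⟩ := A.exists_le (LinearMap.range σ)
  obtain ⟨w₂, hw₂⟩ := A.exh g₀
  set w := max w₁ w₂ with hw
  have hσw : ∀ u : N, σ u ∈ A.fil w := fun u =>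
    A.mono (le_max_left _ _) (hw₁ (LinearMap.mem_range_self σ u))
  have hg₀w : g₀ ∈ A.fil w := A.mono (le_max_right _ _) hw₂
  obtain ⟨i, hi⟩ : ∃ i : ℕ, w + c < 2 ^ i := ⟨w + c, Nat.lt_two_pow_self⟩
  have hdd : d < 2 ^ d := Nat.lt_two_pow_self
  obtain ⟨e, he⟩ : ∃ e, 2 ^ d = e + 1 := ⟨2 ^ d - 1, by omega⟩
  set P := 2 ^ i with hP
  have hn : 2 ^ (i + d) * 1 = P * e + P := by rw [mul_one, pow_add, he]; ring
  have hn' : 2 ^ (i + d) = P * e + P := by rw [← hn, mul_one]
  have hPe : d * P ≤ P * e := by rw [mul_comm P e]; exact Nat.mul_le_mul_right _ (by omega)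
  have hP0 : 0 < P := by omega
  have hX : P * e ≤ d * (P * e) := Nat.le_mul_of_pos_left _ hd
  have hY : P ≤ d * P := Nat.le_mul_of_pos_left _ hd
  have hZ : d * (P * e + P) = d * (P * e) + d * P := by ring
  set b := w + c + (d * (P * e + P) - (P * e + P)) with hb
  set W : Submodule F V' := U ⊓ B.fil b with hW
  have := hfin b
  have : FiniteDimensional F W := Submodule.finiteDimensional_of_le inf_le_right
  obtain ⟨hKf, hK⟩ := finrank_comap_le s U W
  rw [← hN] at hK
  set K : Submodule F V' := U ⊓ W.comap s with hKdef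
  set K' : Submodule F V' := K ⊓ B.fil (d * (P * e + P) - 1) with hK'
  have : FiniteDimensional F K' := Submodule.finiteDimensional_of_le inf_le_left
  have hbl : b ≤ d * (P * e) - 1 := by omega
  have hbl' : b ≤ d * (P * e + P) - 1 := by omega
  have hWK : W ≤ K' := fun v hv =>
    ⟨⟨hv.1, hst v hv.1, hs1 b v hv.1 hv.2⟩, B.mono hbl' hv.2⟩
  -- the extra vector
  have hlt : W < K' := by
    set v := τ ((A.z ^ (P * e)) g₀) with hv
    have hvU : v ∈ U := LinearMap.mem_range_self _ _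
    have hv1 : v ∈ B.fil (d * (P * e + P) - 1) :=
      B.mono (by omega) (hτ.1 _ _ (A.pow_mem (P * e) w hg₀w))
    have hv2 : v ∉ W := by
      intro h
      have h1 := hτ.2 i e w g₀ hg₀w
      have h2 := sub_mem (B.mono hbl h.2)
        (B.mono (show w + c + (d * (P * e) - P) ≤ d * (P * e) - 1 by omega) h1)
      rw [hv, sub_sub_cancel] at h2
      exact hg₀ (hB _ _ (by omega) h2)
    have hex : ∃ k : ℕ, (s ^ k) v ∈ W := by
      obtain ⟨k, hk⟩ := hnil v hvU
      exact ⟨k, by rw [hk]; exact W.zero_mem⟩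
    have hk0 : Nat.find hex ≠ 0 := by
      intro h
      have := Nat.find_spec hex
      rw [h] at this
      exact hv2 (by simpa using this)
    obtain ⟨k, hk⟩ := Nat.exists_eq_succ_of_ne_zero hk0
    have h1 : (s ^ (k + 1)) v ∈ W := by
      have := Nat.find_spec hex
      rwa [hk] at this
    have h2 : (s ^ k) v ∉ W := Nat.find_min hex (by omega)
    have h3 : ∀ j : ℕ, (s ^ j) v ∈ U ∧ (s ^ j) v ∈ B.fil (d * (P * e + P) - 1) := by
      intro j
      induction j with
      | zero => exact ⟨hvU, hv1⟩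
      | succ j ih =>
        rw [pow_succ', Module.End.mul_apply]
        exact ⟨hst _ ih.1, hs1 _ _ ih.1 ih.2⟩
    refine lt_of_le_of_ne hWK (fun h => h2 ?_)
    rw [h]
    refine ⟨⟨(h3 k).1, ?_⟩, (h3 k).2⟩
    rw [pow_succ', Module.End.mul_apply] at h1
    exact h1
  -- the top vectors
  let φ : N →ₗ[F] V' := τ ∘ₗ (A.z ^ (P * e + P)) ∘ₗ σ
  have hφ : ∀ u : N, φ u - (B.z ^ (P * e + P)) (u : V') ∈ B.fil b := fun u => by
    have h1 := hτ.2 (i + d) 1 w (σ u) (hσw u)
    rw [hn, hn', hσ] at h1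
    exact h1
  have huw : ∀ u : N, (u : V') ∈ B.fil (w + c) := fun u => by
    rw [← hσ u]; exact hτ.1 _ _ (hσw u)
  have hφK : LinearMap.range φ ≤ K := by
    rintro _ ⟨u, rfl⟩
    have hU' : φ u ∈ U := LinearMap.mem_range_self _ _
    refine ⟨hU', hst _ hU', ?_⟩
    obtain ⟨C, hC, hC'⟩ := hs (w + d * (P * e + P) + c)
    have h1 := hC.1 _ _ (hφ u)
    have h2 := hC.2 (i + d) 1 (w + c) u (huw u)
    have h3 : C (u : V') = 0 :=
      (hC' u u.2.2 (B.mono (by omega) (huw u))).symm.trans u.2.1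
    rw [hn, hn', h3, map_zero, sub_zero] at h2
    rw [map_sub] at h1
    have h4 := add_mem h1 h2
    rw [sub_add_cancel, ← hC' _ hU' (hτ.1 _ _ (A.pow_mem _ w (hσw u)))] at h4
    exact h4
  have hφ0 : ∀ u : N, φ u ∈ B.fil (d * (P * e + P) - 1) → u = 0 := fun u hu => by
    have h2 := sub_mem hu (B.mono hbl' (hφ u))
    rw [sub_sub_cancel] at h2
    exact Subtype.ext (hB _ _ (by omega) h2)
  have hφi : Function.Injective φ := by
    rw [← LinearMap.ker_eq_bot, LinearMap.ker_eq_bot']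
    intro u hu
    exact hφ0 u (by rw [hu]; exact Submodule.zero_mem _)
  have hdisj : LinearMap.range φ ⊓ K' = ⊥ := by
    rw [eq_bot_iff]
    rintro _ ⟨⟨u, rfl⟩, hu⟩
    rw [hφ0 u hu.2, map_zero]
    exact Submodule.zero_mem _
  have h1 := Submodule.finrank_sup_add_finrank_inf_eq (LinearMap.range φ) K'
  rw [hdisj, finrank_bot, add_zero, LinearMap.finrank_range_of_inj hφi] at h1
  have h2 : Module.finrank F (LinearMap.range φ ⊔ K' : Submodule F V') ≤ Module.finrank F K :=
    Submodule.finrank_mono (sup_le hφK inf_le_left)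
  have h3 := Submodule.finrank_lt_finrank_of_lt hlt
  omega

theorem eq_zero_of_appr (hd : 0 < d) (hB : B.Strict) (hfin : ∀ n, FiniteDimensional F (B.fil n))
    {c : ℕ} {τ : V →ₗ[F] V'} (hτ : Appr A B c τ) {s : Module.End F V'} (hs : Appr B B 0 s)
    (hst : ∀ u ∈ LinearMap.range τ, s u ∈ LinearMap.range τ)
    (hnil : ∀ u ∈ LinearMap.range τ, ∃ k : ℕ, (s ^ k) u = 0)
    [FiniteDimensional F (LinearMap.ker s ⊓ LinearMap.range τ : Submodule F V')] : τ = 0 :=
  eq_zero_of_appr' hd hB hfin hτ (fun _ => ⟨s, hs, fun _ _ _ => rfl⟩) hst hnil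

end Vale.Agent.P022D.Pur
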