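import Vale.Agent.P022D.Pur.Out

/-!
P022D, purity: a module which contains a non zero cut out space has a support of dimension at
least two.
-/

set_option linter.all false

noncomputable section

namespace Vale.Agent.P022D.Pur

open Vale.Agent.P022D.V IsLocalRing

variable {O : Type} [CommRing O] [Co O] {M : ℕ} [NeZero M] {π : O} {R : Type} [CommRing R]
  [Algebra O R] {φ : RR π →ₗ[O] R} {N K : Submodule O (FT M R)} {i : ℕ}

theorem big (hK : HK O) (hM : Odd M) (hπ : Unif π) (h : Amb π φ N) (hc : Cut i N K)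
    (h0 : K ≠ ⊥) {B : Type} [CommRing B] [Algebra O B] {m : Ideal B}
    (hm : ∀ p : B, ∃ c : O, p - algebraMap O B c ∈ m)
    {Y : Type} [AddCommGroup Y] [Module O Y] [Module B Y] [IsScalarTower O B Y]
    {ι : Y →ₗ[O] FT M R} (hι : Function.Injective ι) (hr : K ≤ LinearMap.range ι)
    (hst : ∀ (p : B) (y : Y), ι y ∈ K → ι (p • y) ∈ K)
    (app : ∀ (p : B) (s : Finset Y), (∀ y ∈ s, ι y ∈ K) →
      ∃ C ∈ HA O R M i, (∀ v ∈ N, C v ∈ N) ∧ ∀ y ∈ s, ι (p • y) = C (ι y))
    {b : ℕ} (soc : ∃ s : Fin b → Y, (∀ j, ∀ u ∈ m, u • s j = 0) ∧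
      ∀ w : Y, (∀ u ∈ m, u • w = 0) → w ∈ Submodule.span B (Set.range s))
    (T : Type) [CommRing T] [IsLocalRing T] [IsNoetherianRing T] [Module T Y]
    (h1 : ∀ (u : T) (s : Finset Y), ∃ p : B, ∀ w ∈ s, u • w = p • w)
    (h2 : ∀ u ∈ maximalIdeal T, ∀ w : Y, ∃ k : ℕ, u ^ k • w = 0)
    (h3 : ∀ p : B, ∃ u : T, (p ∈ m → u ∈ maximalIdeal T) ∧ ∀ w : Y, u • w = p • w) :
    ∃ 𝔭 : Ideal T, 𝔭.IsPrime ∧ Module.annihilator T Y ≤ 𝔭 ∧
      (2 : WithBot ℕ∞) ≤ ringKrullDim (T ⧸ 𝔭) := by
  classical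
  have := noeth hπ
  let Z : Submodule O Y := K.comap ι
  have hZ : ∀ (u : T) (y : Y), y ∈ Z → u • y ∈ Z := fun u y hy => by
    obtain ⟨p, hp⟩ := h1 u {y}
    rw [hp y (Finset.mem_singleton_self y)]
    exact hst p y hy
  have hc' : ∀ (u : T) (c : O) (y : Y), u • c • y = c • u • y := fun u c y => by
    obtain ⟨p, hp⟩ := h1 u {y, c • y}
    rw [hp y (by simp), hp (c • y) (by simp), smul_comm]
  let μ : T →+* Module.End O Z :=
    { toFun := fun u =>
        { toFun := fun y => ⟨u • y.1, hZ u _ y.2⟩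
          map_add' := fun x y => Subtype.ext (smul_add u x.1 y.1)
          map_smul' := fun c y => Subtype.ext (hc' u c y.1) }
      map_one' := LinearMap.ext fun y => Subtype.ext (one_smul T y.1)
      map_mul' := fun u v => LinearMap.ext fun y => Subtype.ext (mul_smul u v y.1)
      map_zero' := LinearMap.ext fun y => Subtype.ext (zero_smul T y.1)
      map_add' := fun u v => LinearMap.ext fun y => Subtype.ext (add_smul u v y.1) }
  have hrg : LinearMap.range (ι ∘ₗ Z.subtype) = K := by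
    rw [LinearMap.range_comp, Submodule.range_subtype, Submodule.map_comap_eq_self hr]
  have hne : RingHom.ker μ ≠ ⊤ := fun e => h0 (by
    rw [← hrg, eq_bot_iff]
    rintro _ ⟨y, rfl⟩
    have h4 : μ 1 = 0 := by rw [← RingHom.mem_ker, e]; trivial
    have h5 := LinearMap.congr_fun h4 y
    rw [map_one, Module.End.one_apply, LinearMap.zero_apply] at h5
    rw [h5, map_zero]
    exact Submodule.zero_mem _)
  obtain ⟨P, hP, hP'⟩ := Ideal.exists_le_maximal _ hne
  obtain ⟨p, hp, -⟩ := Ideal.exists_minimalPrimes_le (J := P) hP'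
  refine ⟨p, hp.1.1, fun u hu => hp.1.2 (LinearMap.ext fun y => Subtype.ext
    (Module.mem_annihilator.1 hu y.1)), pure hK hM hπ h hc (ι := ι ∘ₗ Z.subtype)
    (hι.comp Z.injective_subtype) hrg μ (fun u s => ?_)
    (fun u hu y => (h2 u hu y.1).imp fun k hk => Subtype.ext hk) ?_ hp⟩
  · obtain ⟨q, hq⟩ := h1 u (s.image Subtype.val)
    obtain ⟨C, a1, a2, a3⟩ := app q (s.image Subtype.val) fun y hy => by
      obtain ⟨z, -, rfl⟩ := Finset.mem_image.1 hy
      exact z.2
    refine ⟨C, a1, a2, fun y hy => ?_⟩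
    have hy' := Finset.mem_image_of_mem Subtype.val hy
    exact (congrArg ι (hq _ hy')).trans (a3 _ hy')
  · obtain ⟨s, a1, a2⟩ := soc
    have a3 : ∀ w ∈ Submodule.span B (Set.range s),
        w ∈ Submodule.span O (Set.range s) := fun w hw => by
      obtain ⟨c, rfl⟩ := (Submodule.mem_span_range_iff_exists_fun B).1 hw
      refine Submodule.sum_mem _ fun j _ => ?_
      obtain ⟨d, hd⟩ := hm (c j)
      have := a1 j _ hd
      rw [sub_smul, sub_eq_zero, algebraMap_smul] at this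
      rw [this]
      exact Submodule.smul_mem _ d (Submodule.subset_span ⟨j, rfl⟩)
    obtain ⟨t, ht⟩ : ((Submodule.span O (Set.range s)).comap Z.subtype).FG :=
      Submodule.fg_of_fg_map_injective _ Z.injective_subtype
        ((Submodule.fg_span (Set.finite_range s)).of_le (Submodule.map_comap_le _ _))
    refine ⟨t, fun y hy => ?_⟩
    rw [ht]
    refine a3 _ (a2 _ fun q hq => ?_)
    obtain ⟨u, b1, b2⟩ := h3 q
    rw [← b2]
    exact congrArg Subtype.val (hy u (b1 hq))

end Vale.Agent.P022D.Pur
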