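import Vale.Agent.P022D.Pur.Dim

/-!
P022D, purity for the image of an approximable map; passage from the residue field to the
coefficient ring.
-/

open IsLocalRing

namespace Vale.Agent.P022D.Pur

section field

variable {F : Type*} [Field F] {V Y : Type*} [AddCommGroup V] [Module F V] [AddCommGroup Y]
  [Module F Y] {d : ℕ} {B : FZ F V d} {T : Type*} [CommRing T] [IsLocalRing T]
  [IsNoetherianRing T]

theorem act_eq_zero_of_cut (hd : 0 < d) (hB : B.Strict)
    (hfin : ∀ n, FiniteDimensional F (B.fil n)) {ι : Y →ₗ[F] V} (hι : Function.Injective ι)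
    {e : V →ₗ[F] Y} (he : Function.Surjective e) (hea : Appr B B 0 (ι ∘ₗ e))
    {μ : T →+* Module.End F Y}
    (app : ∀ t w, ∃ C : Module.End F V, Appr B B 0 C ∧
      ∀ y, ι y ∈ B.fil w → ι (μ t y) = C (ι y))
    (nil : ∀ s ∈ maximalIdeal T, ∀ y, ∃ k : ℕ, μ (s ^ k) y = 0)
    [FiniteDimensional F (tors μ (maximalIdeal T))] {t : T} {p : Ideal T}
    (hp : ∀ a ∈ p, μ (a * t) = 0) (hdim : ringKrullDim (T ⧸ p) ≤ 1) : μ t = 0 := by
  obtain ⟨s, hs, n, hn⟩ := exists_param p hdim
  obtain ⟨r, hr⟩ := ι.exists_leftInverse_of_injective (LinearMap.ker_eq_bot.2 hι)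
  let s' : Module.End F V := ι ∘ₗ (μ s ∘ₗ r)
  have hsK : ∀ y, s' (ι y) = ι (μ s y) := fun y =>
    congrArg (fun x => ι (μ s x)) (LinearMap.congr_fun hr y)
  have hsk : ∀ (k : ℕ) y, (s' ^ k) (ι y) = ι (μ (s ^ k) y) := by
    intro k
    induction k with
    | zero => intro y; simp
    | succ k ih =>
      intro y
      rw [pow_succ, Module.End.mul_apply, hsK, ih, pow_succ, map_mul, Module.End.mul_apply]
  let τ : V →ₗ[F] V := ι ∘ₗ (μ t ∘ₗ e)
  have hτ : Appr B B 0 τ := Appr.limit fun w => by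
    obtain ⟨C, hC, hC'⟩ := app t w
    exact ⟨C ∘ₗ (ι ∘ₗ e), hC.comp hea, fun f hf => hC' (e f) (hea.1 w f hf)⟩
  have := finite_tors_pow μ (IsNoetherian.noetherian (maximalIdeal T)) n
  have : FiniteDimensional F (LinearMap.ker s' ⊓ LinearMap.range τ : Submodule F V) := by
    refine Submodule.finiteDimensional_of_le (S₂ := (tors μ (maximalIdeal T ^ n)).map ι) ?_
    rintro _ ⟨h1, g, rfl⟩
    refine ⟨μ t (e g), fun a ha => ?_, rfl⟩
    obtain ⟨x, hx, y, hy, rfl⟩ := Submodule.mem_sup.1 (hn ha)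
    obtain ⟨c, rfl⟩ := Ideal.mem_span_singleton'.1 hy
    have h2 : μ s (μ t (e g)) = 0 := hι ((hsK _).symm.trans (h1.trans (map_zero ι).symm))
    rw [map_add, LinearMap.add_apply, map_mul, Module.End.mul_apply, h2, map_zero, add_zero,
      ← Module.End.mul_apply, ← map_mul, hp x hx, LinearMap.zero_apply]
  have h0 : τ = 0 := by
    refine eq_zero_of_appr' hd hB hfin hτ (s := s') (fun w => ?_) ?_ ?_
    · obtain ⟨C, hC, hC'⟩ := app s w
      refine ⟨C, hC, ?_⟩
      rintro _ ⟨g, rfl⟩ h
      exact (hsK _).trans (hC' _ h)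
    · rintro _ ⟨g, rfl⟩
      obtain ⟨g', hg'⟩ := he (μ s (e g))
      refine ⟨g', Eq.trans ?_ (hsK _).symm⟩
      change ι (μ t (e g')) = ι (μ s (μ t (e g)))
      rw [hg', ← Module.End.mul_apply, ← Module.End.mul_apply, ← map_mul, ← map_mul, mul_comm]
    · rintro _ ⟨g, rfl⟩
      obtain ⟨k, hk⟩ := nil s hs (μ t (e g))
      exact ⟨k, (hsk k _).trans ((congrArg ι hk).trans (map_zero ι))⟩
  ext y
  obtain ⟨g, rfl⟩ := he y
  exact hι ((LinearMap.congr_fun h0 g).trans (map_zero ι).symm)

end field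

theorem two_le_of_act {T E : Type*} [CommRing T] [IsNoetherianRing T] [Ring E] (μ : T →+* E)
    (h : ∀ (t : T) (p : Ideal T), (∀ a ∈ p, μ (a * t) = 0) → ringKrullDim (T ⧸ p) ≤ 1 → μ t = 0)
    {p : Ideal T} (hp : p ∈ (RingHom.ker μ).minimalPrimes) : 2 ≤ ringKrullDim (T ⧸ p) := by
  refine two_le_of_not_le fun hd => ?_
  have h1 : p ∈ associatedPrimes T (T ⧸ RingHom.ker μ) := by
    apply Module.associatedPrimes.minimalPrimes_annihilator_subset_associatedPrimes
    rwa [Ideal.annihilator_quotient]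
  obtain ⟨hpp, t, ht⟩ := isAssociatedPrime_iff.1 h1
  obtain ⟨t, rfl⟩ := Ideal.Quotient.mk_surjective t
  have h2 : μ t = 0 := h t p (fun a ha => by
    rw [ht, Submodule.mem_colon_singleton, Submodule.mem_bot] at ha
    exact Ideal.Quotient.eq_zero_iff_mem.1 ha) hd
  apply hpp.ne_top
  rw [ht, Ideal.Quotient.eq_zero_iff_mem.2 h2, eq_top_iff]
  intro a _
  simp

section up

variable {O F : Type*} [CommRing O] [Field F] [Algebra O F]
  (hs : Function.Surjective (algebraMap O F)) {V : Type*} [AddCommGroup V] [Module O V]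
  [Module F V] [IsScalarTower O F V] {d : ℕ}

/-- a submodule as a subspace -/
def upS (N : Submodule O V) : Submodule F V where
  carrier := N
  zero_mem' := N.zero_mem
  add_mem' := N.add_mem
  smul_mem' := fun c v hv => by
    obtain ⟨a, rfl⟩ := hs c
    rw [algebraMap_smul]
    exact N.smul_mem a hv

theorem upS_fin {N : Submodule O V} (h : N.FG) : FiniteDimensional F (upS hs N) := by
  obtain ⟨s, rfl⟩ := h
  refine Submodule.finiteDimensional_of_le (S₂ := Submodule.span F (s : Set V)) fun v hv => ?_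
  exact Submodule.span_le_restrictScalars O F (s : Set V) hv

/-- the filtered space over the residue field -/
def FZ.up (A : FZ O V d) : FZ F V d where
  fil n := upS hs (A.fil n)
  z := A.z.extendScalarsOfSurjective hs
  mono := fun _ _ h => A.mono h
  exh := A.exh
  step := A.step

theorem FZ.up_pow (A : FZ O V d) (n : ℕ) (v : V) : ((A.up hs).z ^ n) v = (A.z ^ n) v := by
  rw [Module.End.pow_apply, Module.End.pow_apply]
  rfl

theorem appr_up {A : FZ O V d} {C : Module.End O V} {C' : Module.End F V} (h : ∀ v, C' v = C v) :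
    Appr (A.up hs) (A.up hs) 0 C' ↔ Appr A A 0 C := by
  simp only [Appr, FZ.up_pow, h]
  rfl

end up

section ring

variable {O : Type*} [CommRing O] (I : Ideal O) [I.IsMaximal] {V Y : Type*} [AddCommGroup V]
  [Module O V] [AddCommGroup Y] [Module O Y] {d : ℕ} {B : FZ O V d}

/-- **purity over the coefficient ring** -/
theorem two_le_ring {T : Type*} [CommRing T] [IsLocalRing T] [IsNoetherianRing T]
    (hV : ∀ a ∈ I, ∀ v : V, a • v = 0) (hd : 0 < d) (hB : B.Strict) (hfin : ∀ n, (B.fil n).FG)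
    {ι : Y →ₗ[O] V} (hι : Function.Injective ι)
    {e : V →ₗ[O] Y} (he : Function.Surjective e) (hea : Appr B B 0 (ι ∘ₗ e))
    {μ : T →+* Module.End O Y}
    (app : ∀ t w, ∃ C : Module.End O V, Appr B B 0 C ∧
      ∀ y, ι y ∈ B.fil w → ι (μ t y) = C (ι y))
    (nil : ∀ s ∈ maximalIdeal T, ∀ y, ∃ k : ℕ, μ (s ^ k) y = 0)
    (soc : ∃ s : Finset Y, ∀ y, (∀ t ∈ maximalIdeal T, μ t y = 0) →
      y ∈ Submodule.span O (s : Set Y))
    {p : Ideal T} (hp : p ∈ (RingHom.ker μ).minimalPrimes) : 2 ≤ ringKrullDim (T ⧸ p) := by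
  have hV' : Module.IsTorsionBySet O V I := fun v a => hV a a.2 v
  have hY' : Module.IsTorsionBySet O Y I := fun y a => hι (by
    rw [map_smul, map_zero]; exact hV a a.2 _)
  let _ := Ideal.Quotient.field I
  let _ := hV'.module
  let _ := hY'.module
  have _ : IsScalarTower O (O ⧸ I) V := hV'.isScalarTower
  have _ : IsScalarTower O (O ⧸ I) Y := hY'.isScalarTower
  have hs : Function.Surjective (algebraMap O (O ⧸ I)) := Ideal.Quotient.mk_surjective
  let μ' : T →+* Module.End (O ⧸ I) Y :=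
    { toFun := fun t => (μ t).extendScalarsOfSurjective hs
      map_one' := LinearMap.ext fun y => LinearMap.congr_fun (map_one μ) y
      map_mul' := fun a b => LinearMap.ext fun y => LinearMap.congr_fun (map_mul μ a b) y
      map_zero' := LinearMap.ext fun y => LinearMap.congr_fun (map_zero μ) y
      map_add' := fun a b => LinearMap.ext fun y => LinearMap.congr_fun (map_add μ a b) y }
  have : FiniteDimensional (O ⧸ I) (tors μ' (maximalIdeal T)) := by
    obtain ⟨s, h⟩ := soc
    refine Submodule.finiteDimensional_of_le (S₂ := Submodule.span (O ⧸ I) (s : Set Y))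
      fun y hy => Submodule.span_le_restrictScalars O (O ⧸ I) (s : Set Y) (h y hy)
  refine two_le_of_act μ (fun t q hq hdim => ?_) hp
  have h0 : μ' t = 0 := act_eq_zero_of_cut (B := B.up hs) hd
    (fun n h hn hh => hB n h hn (by rwa [FZ.up_pow] at hh)) (fun n => upS_fin hs (hfin n))
    (ι := ι.extendScalarsOfSurjective hs) hι (e := e.extendScalarsOfSurjective hs) he
    ((appr_up hs fun _ => rfl).2 hea) (fun t w => by
      obtain ⟨C, hC, hC'⟩ := app t w
      exact ⟨C.extendScalarsOfSurjective hs, (appr_up hs fun _ => rfl).2 hC, hC'⟩) nil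
    (fun a ha => LinearMap.ext fun y => LinearMap.congr_fun (hq a ha) y) hdim
  exact LinearMap.ext fun y => LinearMap.congr_fun h0 y

open scoped IsMulCommutative in
/-- the projector on the vectors on which commuting operators are nilpotent -/
theorem exists_proj_ring (hV : ∀ a ∈ I, ∀ v : V, a • v = 0) (hfin : ∀ n, (B.fil n).FG)
    {J : Type*} (a : J → Module.End O V) (ha : ∀ j, Appr B B 0 (a j))
    (hc : ∀ j k, a j * a k = a k * a j) :
    ∃ e : Module.End O V, (∀ f j, ∃ k : ℕ, (a j ^ k) (e f) = 0) ∧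
      (∀ f, (∀ j, ∃ k : ℕ, (a j ^ k) f = 0) → e f = f) ∧
      ∀ w, ∃ C ∈ Algebra.adjoin O (Set.range a), ∀ f ∈ B.fil w, e f = C f := by
  have hV' : Module.IsTorsionBySet O V I := fun v a => hV a a.2 v
  let _ := Ideal.Quotient.field I
  let _ := hV'.module
  have _ : IsScalarTower O (O ⧸ I) V := hV'.isScalarTower
  have hs : Function.Surjective (algebraMap O (O ⧸ I)) := Ideal.Quotient.mk_surjective
  let a' : J → Module.End (O ⧸ I) V := fun j => (a j).extendScalarsOfSurjective hs
  have hpw : ∀ j k f, (a' j ^ k) f = (a j ^ k) f := fun j k f => by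
    rw [Module.End.pow_apply, Module.End.pow_apply]
    rfl
  have := Algebra.isMulCommutative_adjoin (O ⧸ I) (s := Set.range a') (by
    rintro _ ⟨j, rfl⟩ _ ⟨k, rfl⟩
    exact LinearMap.ext fun v => LinearMap.congr_fun (hc j k) v)
  let H := Algebra.adjoin (O ⧸ I) (Set.range a')
  let g : J → H := fun j => ⟨a' j, Algebra.subset_adjoin ⟨j, rfl⟩⟩
  obtain ⟨e, -, h1, h2, h3, h4⟩ := exists_proj (H := H) (B.up hs) (fun n => upS_fin hs (hfin n))
    H.val (fun h => Appr.adjoin (by
      rintro _ ⟨j, rfl⟩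
      exact (appr_up hs fun _ => rfl).2 (ha j)) h.2) (Ideal.span (Set.range g))
  have hn : ∀ f ∈ prim H.val (Ideal.span (Set.range g)), ∀ j, ∃ k : ℕ, (a j ^ k) f = 0 := by
    rintro f ⟨n, hn⟩ j
    exact ⟨n, (hpw j n f).symm.trans
      (hn (g j ^ n) (Ideal.pow_mem_pow (Ideal.subset_span (Set.mem_range_self j)) n))⟩
  refine ⟨e.restrictScalars O, fun f => hn _ (h1 f), fun f hf => h2 f ?_, fun w => ?_⟩
  · obtain ⟨w, hw⟩ := (B.up hs).exh f
    have : FiniteDimensional (O ⧸ I) ((B.up hs).fil w) := upS_fin hs (hfin w)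
    let A : Ideal H :=
      { carrier := {x | H.val x f = 0}
        zero_mem' := by simp
        add_mem' := fun {x y} hx hy => by
          rw [Set.mem_ofPred_eq, map_add, LinearMap.add_apply, hx, hy, add_zero]
        smul_mem' := fun c x hx => by
          rw [Set.mem_ofPred_eq, smul_eq_mul, map_mul, Module.End.mul_apply, hx, map_zero] }
    have hA : Ideal.span (Set.range g) ≤ A.radical := by
      rw [Ideal.span_le]
      rintro _ ⟨j, rfl⟩
      obtain ⟨k, hk⟩ := hf j
      exact ⟨k, (hpw j k f).trans hk⟩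
    obtain ⟨r, hr⟩ := exists_fitting H.val (Ideal.span (Set.range g)) ((B.up hs).fil w)
      (fun h f hf => (Appr.adjoin (A := B.up hs) (by
        rintro _ ⟨j, rfl⟩
        exact (appr_up hs fun _ => rfl).2 (ha j)) h.2).1 w f hf)
    obtain ⟨p1, x, hx, p2⟩ := hr f hw
    obtain ⟨k, hk⟩ := hA (neg_mem hx)
    have p3 : ∀ n : ℕ, H.val ((-(x - 1)) ^ n) (f - H.val r f) = f - H.val r f := by
      intro n
      induction n with
      | zero => simp
      | succ n ih =>
        rw [neg_sub] at ih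
        rw [pow_succ, map_mul, Module.End.mul_apply, neg_sub, map_sub H.val, map_one,
          LinearMap.sub_apply, p2, sub_zero, Module.End.one_apply, ih]
    have p4 : H.val ((-(x - 1)) ^ k) f = 0 := hk
    have p5 := p3 k
    rw [map_sub, rho_comm, p4, map_zero, sub_zero, eq_comm, sub_eq_zero] at p5
    rw [p5]
    exact p1
  · obtain ⟨⟨r, hr⟩, hr'⟩ := h4 w
    have : ∃ C ∈ Algebra.adjoin O (Set.range a), ∀ f, r f = C f := by
      clear hr'
      induction hr using Algebra.adjoin_induction with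
      | mem x hx =>
        obtain ⟨j, rfl⟩ := hx
        exact ⟨a j, Algebra.subset_adjoin ⟨j, rfl⟩, fun _ => rfl⟩
      | algebraMap c =>
        obtain ⟨c, rfl⟩ := hs c
        exact ⟨algebraMap O _ c, Subalgebra.algebraMap_mem _ c, fun f => algebraMap_smul _ c f⟩
      | add x y _ _ hx hy =>
        obtain ⟨C, h1, h2⟩ := hx
        obtain ⟨C', h1', h2'⟩ := hy
        exact ⟨C + C', add_mem h1 h1', fun f => by
          rw [LinearMap.add_apply, LinearMap.add_apply, h2, h2']⟩
      | mul x y _ _ hx hy =>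
        obtain ⟨C, h1, h2⟩ := hx
        obtain ⟨C', h1', h2'⟩ := hy
        exact ⟨C * C', mul_mem h1 h1', fun f => by
          rw [Module.End.mul_apply, Module.End.mul_apply, h2, h2']⟩
    obtain ⟨C, hC, hC'⟩ := this
    exact ⟨C, hC, fun f hf => (hr' f hf).trans (hC' f)⟩

end ring

end Vale.Agent.P022D.Pur
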