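import Vale.Agent.P022D.Pur.Proj

/-!
P022D, purity (ring form): a noetherian local ring `T` acts on an admissible subspace `K` of a
filtered space by approximable operators. An approximable `T`-stable map into `K` killed by an
ideal `p` with `dim T / p ≤ 1` is zero; all associated primes have dimension at least two.
-/

open IsLocalRing

namespace Vale.Agent.P022D.Pur

theorem exists_param {T : Type*} [CommRing T] [IsNoetherianRing T] [IsLocalRing T] (p : Ideal T)
    (hd : ringKrullDim (T ⧸ p) ≤ 1) :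
    ∃ s ∈ maximalIdeal T, ∃ c : ℕ, maximalIdeal T ^ c ≤ p ⊔ Ideal.span {s} := by
  by_cases hp : p = ⊤
  · exact ⟨0, zero_mem _, 0, by simp [hp]⟩
  have : Nontrivial (T ⧸ p) := Ideal.Quotient.nontrivial_iff.2 hp
  have : IsLocalRing (T ⧸ p) :=
    IsLocalRing.of_surjective' (Ideal.Quotient.mk p) Ideal.Quotient.mk_surjective
  obtain ⟨s, hs, hc⟩ := (maximalIdeal (T ⧸ p)).exists_finset_card_eq_height_of_isNoetherianRing
  have h1 : s.card ≤ 1 := by
    rw [← maximalIdeal_height_eq_ringKrullDim, ← hc] at hd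
    exact_mod_cast hd
  have h2 : maximalIdeal (T ⧸ p) ≤ (Ideal.span (s : Set (T ⧸ p))).radical := by
    rw [Ideal.radical_eq_sInf]
    refine le_sInf fun J hJ => hs.2 ⟨hJ.2, hJ.1⟩ (le_maximalIdeal hJ.2.ne_top)
  obtain ⟨c, hc'⟩ := Ideal.exists_pow_le_of_le_radical_of_fg h2 (IsNoetherian.noetherian _)
  obtain ⟨x, hx, hx'⟩ : ∃ x ∈ maximalIdeal (T ⧸ p),
      Ideal.span (s : Set (T ⧸ p)) ≤ Ideal.span {x} := by
    rcases Finset.eq_empty_or_nonempty s with h | ⟨a, ha⟩
    · exact ⟨0, zero_mem _, by simp [h]⟩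
    · refine ⟨a, hs.1.2 (Ideal.subset_span ha), Ideal.span_mono fun b hb => ?_⟩
      exact Finset.card_le_one.1 h1 b hb a ha
  obtain ⟨y, rfl⟩ := Ideal.Quotient.mk_surjective x
  refine ⟨y, fun hy => hx (hy.map _), c, fun a ha => ?_⟩
  have h3 : (maximalIdeal T).map (Ideal.Quotient.mk p) ≤ maximalIdeal (T ⧸ p) := by
    refine le_maximalIdeal fun h => ?_
    have h4 := congrArg (Ideal.comap (Ideal.Quotient.mk p)) h
    rw [Ideal.comap_map_of_surjective _ Ideal.Quotient.mk_surjective, Ideal.comap_top,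
      ← RingHom.ker_eq_comap_bot, Ideal.mk_ker, sup_eq_left.2 (le_maximalIdeal hp)] at h4
    exact (maximalIdeal.isMaximal T).ne_top h4
  have h5 : Ideal.Quotient.mk p a ∈ (Ideal.span {y}).map (Ideal.Quotient.mk p) := by
    rw [Ideal.map_span, Set.image_singleton]
    refine hx' (hc' (Ideal.pow_right_mono h3 c ?_))
    rw [← Ideal.map_pow]
    exact Ideal.mem_map_of_mem _ ha
  have h6 : a ∈ ((Ideal.span {y}).map (Ideal.Quotient.mk p)).comap (Ideal.Quotient.mk p) := h5
  rwa [Ideal.comap_map_of_surjective _ Ideal.Quotient.mk_surjective,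
    ← RingHom.ker_eq_comap_bot, Ideal.mk_ker, sup_comm] at h6

variable {F : Type*} [Field F] {T : Type*} [CommRing T]

/-- the vectors killed by `I` -/
def tors {K : Type*} [AddCommGroup K] [Module F K] (μ : T →+* Module.End F K) (I : Ideal T) :
    Submodule F K where
  carrier := {f | ∀ a ∈ I, μ a f = 0}
  zero_mem' := fun _ _ => map_zero _
  add_mem' := fun hf hg a ha => by rw [map_add, hf a ha, hg a ha, add_zero]
  smul_mem' := fun c f hf a ha => by rw [map_smul, hf a ha, smul_zero]

theorem mem_tors {K : Type*} [AddCommGroup K] [Module F K] {μ : T →+* Module.End F K}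
    {I : Ideal T} {f : K} : f ∈ tors μ I ↔ ∀ a ∈ I, μ a f = 0 := Iff.rfl

theorem finite_tors_pow {K : Type*} [AddCommGroup K] [Module F K] (μ : T →+* Module.End F K)
    {m : Ideal T} (hm : m.FG) [FiniteDimensional F (tors μ m)] (c : ℕ) :
    FiniteDimensional F (tors μ (m ^ c)) := by
  induction c with
  | zero =>
    have : tors μ (m ^ 0) = ⊥ := by
      rw [eq_bot_iff]
      intro f hf
      simpa using hf 1 (by simp)
    rw [this]
    infer_instance
  | succ c ih =>
    obtain ⟨s, hs⟩ := hm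
    have hsm : ∀ x : s, (x : T) ∈ m := fun x => hs ▸ Ideal.subset_span x.2
    let φ : tors μ (m ^ (c + 1)) →ₗ[F] (s → tors μ (m ^ c)) :=
      LinearMap.pi fun x => (μ x).restrict fun f hf a ha => by
        rw [← Module.End.mul_apply, ← map_mul]
        exact hf _ (by rw [pow_succ]; exact Ideal.mul_mem_mul ha (hsm x))
    let ψ : LinearMap.ker φ →ₗ[F] tors μ m :=
      LinearMap.codRestrict _ ((tors μ (m ^ (c + 1))).subtype ∘ₗ (LinearMap.ker φ).subtype)
        (fun f a ha => by
          rw [← hs] at ha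
          induction ha using Submodule.span_induction with
          | mem x hx =>
            exact congrArg Subtype.val (congrFun (LinearMap.mem_ker.1 f.2) ⟨x, hx⟩)
          | zero => simp
          | add x y _ _ hx hy => rw [map_add, LinearMap.add_apply, hx, hy, add_zero]
          | smul r x _ hx => rw [smul_eq_mul, map_mul, Module.End.mul_apply, hx, map_zero])
    have hψ : Function.Injective ψ := by
      intro x y hxy
      have := congrArg Subtype.val hxy
      exact Subtype.ext (Subtype.ext this)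
    have : FiniteDimensional F (LinearMap.ker φ) := FiniteDimensional.of_injective ψ hψ
    have : FiniteDimensional F (tors μ (m ^ (c + 1)) ⧸ LinearMap.ker φ) :=
      LinearEquiv.finiteDimensional φ.quotKerEquivRange.symm
    exact Module.Finite.of_submodule_quotient (LinearMap.ker φ)

variable {V V' : Type*} [AddCommGroup V] [Module F V] [AddCommGroup V'] [Module F V'] {d : ℕ}

/-- the data to which purity applies: `K` is cut out of `B` by an approximable projector, `T`
acts on `K` by limits of approximable operators, its maximal ideal is locally nilpotent and its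
socle is finite dimensional -/
structure Adm (B : FZ F V' d) (K : Submodule F V') [IsLocalRing T]
    (μ : T →+* Module.End F K) : Prop where
  pos : 0 < d
  strict : B.Strict
  fin : ∀ n, FiniteDimensional F (B.fil n)
  proj : ∃ e : Module.End F V', Appr B B 0 e ∧ (∀ f, e f ∈ K) ∧ ∀ f ∈ K, e f = f
  app : ∀ t w, ∃ C : Module.End F V', Appr B B 0 C ∧
    ∀ f : K, (f : V') ∈ B.fil w → (μ t f : V') = C f
  nil : ∀ s ∈ maximalIdeal T, ∀ f : K, ∃ k : ℕ, μ (s ^ k) f = 0
  soc : FiniteDimensional F (tors μ (maximalIdeal T))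

variable {A : FZ F V d} {B : FZ F V' d} {K : Submodule F V'} [IsLocalRing T]
  {μ : T →+* Module.End F K}

/-- composing an approximable map into `K` with an element of `T` -/
theorem Adm.appr_comp (h : Adm B K μ) {c : ℕ} {τ : V →ₗ[F] K}
    (hτ : Appr A B c (K.subtype ∘ₗ τ)) (t : T) : Appr A B c (K.subtype ∘ₗ (μ t ∘ₗ τ)) := by
  refine Appr.limit fun w => ?_
  obtain ⟨C, hC, hC'⟩ := h.app t (w + c)
  exact ⟨C ∘ₗ (K.subtype ∘ₗ τ), hC.comp hτ, fun f hf => hC' (τ f) (hτ.1 w f hf)⟩

/-- **Purity.** -/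
theorem Adm.eq_zero [IsNoetherianRing T] (h : Adm B K μ) {c : ℕ} {τ : V →ₗ[F] K}
    (hτ : Appr A B c (K.subtype ∘ₗ τ)) (hst : ∀ t g, ∃ g', τ g' = μ t (τ g)) {p : Ideal T}
    (hp : ∀ a ∈ p, ∀ g, μ a (τ g) = 0) (hd : ringKrullDim (T ⧸ p) ≤ 1) : τ = 0 := by
  obtain ⟨s, hs, n, hn⟩ := exists_param p hd
  obtain ⟨e, he, heK, he1⟩ := h.proj
  let e' : V' →ₗ[F] K := e.codRestrict K heK
  have he' : ∀ f : K, e' f = f := fun f => Subtype.ext (he1 f f.2)
  let s' : Module.End F V' := K.subtype ∘ₗ (μ s ∘ₗ e')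
  have hs' : Appr B B 0 s' := h.appr_comp (τ := e') he s
  have hsK : ∀ f : K, s' f = μ s f := fun f => by
    simp only [s', LinearMap.comp_apply, he', Submodule.subtype_apply]
  have hsk : ∀ (k : ℕ) (f : K), (s' ^ k) f = μ (s ^ k) f := by
    intro k
    induction k with
    | zero => intro f; simp
    | succ k ih =>
      intro f
      rw [pow_succ, Module.End.mul_apply, hsK, ih, pow_succ, map_mul, Module.End.mul_apply]
  have := h.soc
  have := finite_tors_pow μ (IsNoetherian.noetherian (maximalIdeal T)) n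
  have : FiniteDimensional F
      (LinearMap.ker s' ⊓ LinearMap.range (K.subtype ∘ₗ τ) : Submodule F V') := by
    refine Submodule.finiteDimensional_of_le
      (S₂ := (tors μ (maximalIdeal T ^ n)).map K.subtype) ?_
    rintro _ ⟨h1, g, rfl⟩
    refine ⟨τ g, fun a ha => ?_, rfl⟩
    obtain ⟨x, hx, y, hy, rfl⟩ := Submodule.mem_sup.1 (hn ha)
    obtain ⟨r, rfl⟩ := Ideal.mem_span_singleton'.1 hy
    have h2 : μ s (τ g) = 0 := Subtype.ext ((hsK (τ g)).symm.trans h1)
    rw [map_add, LinearMap.add_apply, hp x hx, zero_add, map_mul, Module.End.mul_apply, h2,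
      map_zero]
  have h0 : K.subtype ∘ₗ τ = 0 := by
    refine eq_zero_of_appr h.pos h.strict h.fin hτ hs' ?_ ?_
    · rintro _ ⟨g, rfl⟩
      obtain ⟨g', hg'⟩ := hst s g
      exact ⟨g', (congrArg Subtype.val hg').trans (hsK (τ g)).symm⟩
    · rintro _ ⟨g, rfl⟩
      obtain ⟨k, hk⟩ := h.nil s hs (τ g)
      exact ⟨k, (hsk k (τ g)).trans (congrArg Subtype.val hk)⟩
  ext g
  exact LinearMap.congr_fun h0 g

/-- an element of `T` killed (on `K`) by an ideal of dimension at most one acts as zero -/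
theorem Adm.act_eq_zero [IsNoetherianRing T] (h : Adm B K μ) {t : T} {p : Ideal T}
    (hp : ∀ a ∈ p, μ (a * t) = 0) (hd : ringKrullDim (T ⧸ p) ≤ 1) : μ t = 0 := by
  obtain ⟨e, he, heK, he1⟩ := h.proj
  let e' : V' →ₗ[F] K := e.codRestrict K heK
  have he' : ∀ f : K, e' f = f := fun f => Subtype.ext (he1 f f.2)
  have h0 : μ t ∘ₗ e' = 0 := by
    refine h.eq_zero (h.appr_comp (τ := e') he t) (fun a g => ⟨μ a (e' g), ?_⟩)
      (fun a ha g => ?_) hd
    · rw [LinearMap.comp_apply, LinearMap.comp_apply, he', ← Module.End.mul_apply,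
        ← Module.End.mul_apply, ← map_mul, ← map_mul, mul_comm]
    · rw [LinearMap.comp_apply, ← Module.End.mul_apply, ← map_mul, hp a ha, LinearMap.zero_apply]
  ext f
  have := LinearMap.congr_fun h0 f
  rw [LinearMap.comp_apply, he'] at this
  rw [this]
  rfl

theorem two_le_of_not_le {x : WithBot ℕ∞} (h : ¬ x ≤ 1) : 2 ≤ x := by
  induction x with
  | bot => exact absurd bot_le h
  | coe x =>
    have h1 : ¬ x ≤ 1 := fun h' => h (by exact_mod_cast h')
    have h2 : (1 : ℕ∞) + 1 ≤ x := Order.add_one_le_of_lt (not_le.1 h1)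
    rw [one_add_one_eq_two] at h2
    exact WithBot.coe_le_coe.2 h2

/-- for a faithful action every associated prime of `T` has dimension at least two -/
theorem Adm.two_le_of_associated [IsNoetherianRing T] (h : Adm B K μ)
    (hμ : Function.Injective μ) {p : Ideal T} (hp : IsAssociatedPrime p T) :
    2 ≤ ringKrullDim (T ⧸ p) := by
  refine two_le_of_not_le fun hd => ?_
  obtain ⟨hpp, t, ht⟩ := isAssociatedPrime_iff.1 hp
  have h1 : μ t = 0 := h.act_eq_zero (p := p) (fun a ha => by
    rw [ht, Submodule.mem_colon_singleton, Submodule.mem_bot, smul_eq_mul] at ha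
    rw [ha, map_zero]) hd
  have h2 : t = 0 := hμ (by rw [h1, map_zero])
  apply hpp.ne_top
  rw [ht, h2, eq_top_iff]
  intro a _
  simp

/-- every prime minimal over the kernel of the action has dimension at least two -/
theorem Adm.two_le_of_minimal [IsNoetherianRing T] (h : Adm B K μ) {p : Ideal T}
    (hp : p ∈ (RingHom.ker μ).minimalPrimes) : 2 ≤ ringKrullDim (T ⧸ p) := by
  refine two_le_of_not_le fun hd => ?_
  have h1 : p ∈ associatedPrimes T (T ⧸ RingHom.ker μ) := by
    apply Module.associatedPrimes.minimalPrimes_annihilator_subset_associatedPrimes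
    rwa [Ideal.annihilator_quotient]
  obtain ⟨hpp, t, ht⟩ := isAssociatedPrime_iff.1 h1
  obtain ⟨t, rfl⟩ := Ideal.Quotient.mk_surjective t
  have h2 : μ t = 0 := h.act_eq_zero (p := p) (fun a ha => by
    rw [ht, Submodule.mem_colon_singleton, Submodule.mem_bot] at ha
    exact Ideal.Quotient.eq_zero_iff_mem.1 ha) hd
  apply hpp.ne_top
  rw [ht, Ideal.Quotient.eq_zero_iff_mem.2 h2, eq_top_iff]
  intro a _
  simp

end Vale.Agent.P022D.Pur
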