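import Vale.Agent.P022D.V.Sturm
import Vale.Agent.P022D.Pur.Cut

/-!
P022D, purity: the weight filtration of the forms modulo the maximal ideal, the shift by `Δ ^ 2`,
the window estimate for the Hecke operators.
-/

set_option linter.all false

noncomputable section

namespace Vale.Agent.P022D.Pur

open Vale.Agent.P022D.V Vale.Agent.P022D.V.Tr Vale.Agent.P022.H790.A IsLocalRing

section formal

variable {M : ℕ} {S R R' : Type} [CommRing S] [CommRing R] [Algebra S R] [CommRing R']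
  [Algebra S R'] (φ : R →ₐ[S] R')

theorem mp_kt (s : PowerSeries R) : mp S M φ (kt M s) = kt M (s.map (φ : R →+* R')) := rfl

theorem mp_ep (k : ℕ) (w : FT M R) : mp S M φ (ep S R M k w) = ep S R' M k (mp S M φ w) := by
  simp only [ep, LinearMap.smul_apply, AlgHom.toLinearMap_apply, map_zsmul]
  rfl

theorem mp_pw (i p : ℕ) (w : FT M R) : mp S M φ (pw S R M i p w) = pw S R' M i p (mp S M φ w) := by
  simp only [pw, LinearMap.add_apply, LinearMap.smul_apply, LinearMap.sub_apply,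
    Module.End.one_apply, map_add, map_nsmul, map_sub, mp_ep]

theorem mp_Uf (p : ℕ) (u : (ZMod M)ˣ) (w : FT M R) :
    mp S M φ (Uf S R p u w) = Uf S R' p u (mp S M φ w) := by
  funext g
  change (Uo p (w (dg 1 u * g))).map (φ : R →+* R') =
    Uo p ((w (dg 1 u * g)).map (φ : R →+* R'))
  ext n
  simp only [Uo, PowerSeries.coeff_map, PowerSeries.coeff_mk]

theorem mp_Vf (p : ℕ) (u : (ZMod M)ˣ) (w : FT M R) :
    mp S M φ (Vf S R p u w) = Vf S R' p u (mp S M φ w) :=
  funext fun _ => map_Vo _ _ _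

theorem mp_Bt (i p : ℕ) (u : (ZMod M)ˣ) (a b : PowerSeries R) (w : FT M R) :
    mp S M φ (Bt S i p u a b w) =
      Bt S i p u (a.map (φ : R →+* R')) (b.map (φ : R →+* R')) (mp S M φ w) := by
  simp only [Bt, map_add, map_nsmul, map_mul, mp_Uf, mp_Vf, mp_pw, mp_kt]

theorem map_cx [NeZero M] (ψ : R →+* R') (s : PowerSeries ℤ) :
    (cx R M s).map ψ = cx R' M s := by
  change (PowerSeries.expand M (NeZero.ne M) _).map ψ = PowerSeries.expand M (NeZero.ne M) _
  rw [PowerSeries.map_expand, map_int]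

theorem map_h1 [NeZero M] (ψ : R →+* R') {p : ℕ} (hp : p ≠ 0) :
    (h1 R M hp).map ψ = h1 R' M hp := by
  simp only [h1, map_mul, map_sub, map_ofNat, PowerSeries.map_expand, map_cx]

theorem map_h2 [NeZero M] (ψ : R →+* R') {p : ℕ} (hp : p ≠ 0) :
    (h2 R M hp).map ψ = h2 R' M hp := by
  simp only [h2, map_mul, map_sub, map_add, map_pow, map_natCast, map_ofNat,
    PowerSeries.map_expand, map_cx]

theorem ep_rt (k : ℕ) (h : GM M) (w : FT M R) :
    ep S R M k (rt S R h w) = rt S R h (ep S R M k w) := by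
  simp only [ep, LinearMap.smul_apply, AlgHom.toLinearMap_apply, map_zsmul]
  rw [← AlgHom.mul_apply, ← AlgHom.mul_apply, ← map_mul, ← map_mul, dg_center]

theorem ep_succ (k : ℕ) : ep S R M (k + 1) = -ep S R M k := by
  simp [ep, pow_succ]

theorem odd_cast {A : Type} [CommRing A] (h2 : (2 : A) = 0) {n : ℕ} (hn : Odd n) :
    (n : A) = 1 := by
  obtain ⟨c, rfl⟩ := hn
  push_cast
  rw [h2, zero_mul, zero_add]

theorem two_PS (h2 : (2 : R) = 0) : (2 : PowerSeries R) = 0 := by
  rw [← map_ofNat (PowerSeries.C (R := R)) 2, h2, map_zero]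

theorem two_FT (h2 : (2 : R) = 0) : (2 : FT M R) = 0 := by
  rw [← map_ofNat (kt M) 2, two_PS h2, map_zero]

theorem ep_two (h2 : (2 : R) = 0) (k l : ℕ) (w : FT M R) : ep S R M k w = ep S R M l w := by
  have h : ∀ k, ep S R M k w = ep S R M 0 w := fun k => by
    induction k with
    | zero => rfl
    | succ k ih =>
      rw [ep_succ, LinearMap.neg_apply, ih]
      linear_combination (-ep S R M 0 w) * two_FT (M := M) h2
  rw [h k, h l]

/-- the twisted operator in characteristic two -/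
def bt (S : Type) [CommRing S] [Algebra S R] (p : ℕ) (u : (ZMod M)ˣ)
    (x : PowerSeries R × PowerSeries R) (w : FT M R) : FT M R :=
  Uf S R p u (kt M x.1 * w) + kt M x.2 * Vf S R p u (pw S R M 0 p w)

theorem Bt_eq (h2 : (2 : R) = 0) (i : ℕ) {p : ℕ} (hp : Odd p) (u : (ZMod M)ˣ)
    (a b : PowerSeries R) (w : FT M R) : Bt S i p u a b w = bt S p u (a, b) w := by
  have e : pw S R M i p w = pw S R M 0 p w := by
    simp only [pw, LinearMap.add_apply, LinearMap.smul_apply, LinearMap.sub_apply]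
    rw [ep_two h2 (i + 1) (0 + 1)]
  rw [Bt, bt, nsmul_eq_mul, odd_cast (two_FT h2) hp.pow, one_mul, e]

theorem T2_eq (h2 : (2 : R) = 0) (i : ℕ) {p : ℕ} (hp : Odd p) (u : (ZMod M)ˣ) (w : FT M R) :
    T2 S R i p u w = bt S p u 1 w := by
  rw [← Prod.mk_one_one, ← Bt_eq h2 i hp, Bt, map_one, one_mul, one_mul]
  rfl

theorem bt_add (p : ℕ) (u : (ZMod M)ˣ) (x y : PowerSeries R × PowerSeries R) (w : FT M R) :
    bt S p u (x + y) w = bt S p u x w + bt S p u y w := by
  simp only [bt, Prod.fst_add, Prod.snd_add, map_add, add_mul]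
  abel

theorem bt_neg (p : ℕ) (u : (ZMod M)ˣ) (x : PowerSeries R × PowerSeries R) (w : FT M R) :
    bt S p u (-x) w = -bt S p u x w := by
  simp only [bt, Prod.fst_neg, Prod.snd_neg, map_neg, neg_mul]
  abel

theorem bt_zero (p : ℕ) (u : (ZMod M)ˣ) (w : FT M R) : bt S p u 0 w = 0 := by simp [bt]

theorem bt_left {p : ℕ} (hp : p ≠ 0) (u : (ZMod M)ˣ) (a : PowerSeries R)
    (x : PowerSeries R × PowerSeries R) (w : FT M R) :
    bt S p u ((PowerSeries.expand p hp a, a) * x) w = kt M a * bt S p u x w := by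
  simp only [bt, Prod.fst_mul, Prod.snd_mul, map_mul, mul_assoc, Uf_kt, mul_add]

theorem bt_right {p : ℕ} (hp : p ≠ 0) (u : (ZMod M)ˣ) (a : PowerSeries R) (w : FT M R) :
    bt S p u 1 (kt M a * w) = bt S p u (a, PowerSeries.expand p hp a) w := by
  simp only [bt, Prod.fst_one, Prod.snd_one, map_one, one_mul, pw_kt, Vf_kt hp]

theorem as_pair [NeZero M] (h2' : (2 : R) = 0) {p : ℕ} (hp : p ≠ 0) (ho : Odd p) :
    (PowerSeries.expand p hp (cx R M DZ), cx R M DZ) + (h1 R M hp, h2 R M hp) +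
      (h1 R M hp, h2 R M hp) ^ 2 = (cx R M DZ, PowerSeries.expand p hp (cx R M DZ)) := by
  have t := two_PS h2'
  have a := window_of_hom t (cx R M) ((PowerSeries.expand p hp).toRingHom.comp (cx R M))
  have b := window_of_hom t ((PowerSeries.expand p hp).toRingHom.comp (cx R M)) (cx R M)
  simp only [RingHom.comp_apply, AlgHom.toRingHom_eq_coe, RingHom.coe_coe] at a b
  have c := odd_cast t ho
  obtain ⟨e, he⟩ := Nat.even_mul_succ_self ((p ^ 4 - 1) / 16)
  have f := congrArg (Nat.cast : ℕ → PowerSeries R) he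
  push_cast at f
  refine Prod.ext ?_ ?_
  · simp only [Prod.fst_add, Prod.pow_fst, h1]
    generalize cx R M (sg 3) - PowerSeries.expand p hp (cx R M (sg 3)) = x at a ⊢
    linear_combination -a + (7 * x + 112 * x ^ 2) * t
  · simp only [Prod.snd_add, Prod.pow_snd, h2, c, one_pow, one_mul]
    generalize PowerSeries.expand p hp (cx R M (sg 3)) - cx R M (sg 3) = x at b ⊢
    generalize (((p ^ 4 - 1) / 16 : ℕ) : PowerSeries R) = y at f ⊢
    linear_combination -b + f + (e + 7 * x + 112 * x ^ 2 + 15 * x * y) * t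

end formal

variable {O : Type} [CommRing O] [Co O] {M : ℕ} [NeZero M] {π : O}

theorem red_cx (s : PowerSeries ℤ) : red M π (kt M (cx (AA O) M s)) = kt M (cx (RR π) M s) := by
  rw [V.red, mp_kt, map_cx]

theorem Fil2_cx {k j : ℕ} {s : PowerSeries ℤ} (hs : kt M (cx (AA O) M s) ∈ L O M (2 * j))
    {v : FT M (RR π)} (hv : v ∈ Fil2 M k π) :
    kt M (cx (RR π) M s) * v ∈ Fil2 M (k + 2 * j) π := by
  obtain ⟨w, hw, rfl⟩ := hv
  exact ⟨_, L2_kt hs hw, by
    rw [AlgHom.toLinearMap_apply, AlgHom.toLinearMap_apply, map_mul, red_cx]⟩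

theorem Fil2_four (hπ : Unif π) (k : ℕ) : Fil2 M k π ≤ Fil2 M (k + 4) π := fun v hv => by
  have h := Fil2_cx (j := 2) E4_mem hv
  have e : kt M (cx (RR π) M E4Z) = 1 := by
    simp only [E4Z, map_add, map_mul, map_one, map_ofNat]
    linear_combination (120 * kt M (cx (RR π) M (sg 3))) * two_FT (M := M) (two_RR hπ)
  rwa [e, one_mul] at h

theorem Fil2_five (hπ : Unif π) (k : ℕ) : Fil2 M k π ≤ Fil2 M (k + 5) π := by
  rintro _ ⟨w, hw, rfl⟩
  have hw1 : w + ep O (AA O) M k w ∈ L O M k := hw.1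
  have hw2 : w - ep O (AA O) M k w ∈ L O M (k + 1) := hw.2
  refine ⟨w + kt M (cx (AA O) M (120 * sg 3)) * (w - ep O _ M k w) -
    kt M (cx (AA O) M (252 * sg 5)) * (w + ep O _ M k w), ?_, ?_⟩
  · have e : ep O (AA O) M (k + 5) = -ep O (AA O) M k := by
      rw [ep_succ]
      exact congrArg Neg.neg (ep_add k 2)
    have a1 := L_mul (E4_mem (O := O) (M := M)) hw2
    have a2 := L_mul (E6_mem (O := O) (M := M)) hw1
    rw [show 4 + (k + 1) = k + 5 by ring] at a1
    rw [show 6 + k = k + 5 + 1 by ring] at a2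
    rw [SetLike.mem_coe, mem_L2, e]
    simp only [LinearMap.add_apply, LinearMap.sub_apply, LinearMap.neg_apply,
      Module.End.one_apply, map_add, map_sub, ep_kt, ep_ep]
    refine ⟨(congrArg (· ∈ L O M (k + 5)) ?_).mp a1, (congrArg (· ∈ L O M (k + 5 + 1)) ?_).mp a2⟩
    · simp only [E4Z, map_add, map_mul, map_one, map_ofNat]
      ring
    · simp only [E6Z, map_sub, map_mul, map_one, map_ofNat]
      ring
  · simp only [AlgHom.toLinearMap_apply, map_add, map_sub, map_mul, map_ofNat]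
    generalize red M π (ep O (AA O) M k w) = b
    generalize red M π (kt M (cx (AA O) M (sg 3))) = x
    generalize red M π (kt M (cx (AA O) M (sg 5))) = y
    linear_combination (60 * x * (red M π w - b) - 126 * y * (red M π w + b)) *
      two_FT (M := M) (two_RR hπ)

theorem Fil2_four' (hπ : Unif π) (k a : ℕ) : Fil2 M k π ≤ Fil2 M (k + 4 * a) π := by
  induction a with
  | zero => exact le_rfl
  | succ a ih => exact ih.trans (Fil2_four hπ _)

theorem Fil2_le (hπ : Unif π) {k l : ℕ} (h : k + 12 ≤ l) : Fil2 M k π ≤ Fil2 M l π := by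
  have h5 : ∀ b, Fil2 M k π ≤ Fil2 M (k + 5 * b) π := fun b => by
    induction b with
    | zero => exact le_rfl
    | succ b ih => exact ih.trans (Fil2_five hπ _)
  obtain ⟨a, b, rfl⟩ : ∃ a b, l = k + 5 * b + 4 * a :=
    ⟨(l - k - 5 * ((l - k) % 4)) / 4, (l - k) % 4, by omega⟩
  exact (h5 b).trans (Fil2_four' hπ _ _)

/-- the filtration by the weight -/
def fl (M : ℕ) (π : O) : ℕ → Submodule O (FT M (RR π))
  | 0 => ⊥
  | n + 1 => Fil2 M (4 * n + 4) π

theorem fl_mono (hπ : Unif π) : Monotone (fl M π) := monotone_nat_of_le_succ fun n => by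
  cases n with
  | zero => exact bot_le
  | succ n => exact Fil2_four hπ _

theorem mem_V2 (hπ : Unif π) {k : ℕ} {v : FT M (RR π)} : v ∈ V2 M k π ↔ ∃ n, v ∈ fl M π n := by
  refine ⟨fun h => ?_, ?_⟩
  · have h1 : v ∈ ⨆ n, fl M π n := by
      refine (iSup_le fun l => le_iSup_of_le (l.1 + 3 + 1) ?_ :
        _ ≤ ⨆ n, fl M π n) ((Submodule.mem_iInf _).1 h 0)
      exact Fil2_le hπ (by omega)
    exact (Submodule.mem_iSup_of_directed _ (fl_mono hπ).directed_le).1 h1
  · rintro ⟨_ | n, h⟩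
    · rw [(Submodule.mem_bot O).1 h]
      exact zero_mem _
    · refine (Submodule.mem_iInf _).2 fun s => Submodule.mem_iSup_of_mem
        ⟨k + 2 ^ s * (4 * n + 16), by simp [Nat.ModEq]⟩ (Fil2_le hπ ?_ h)
      exact (Nat.le_mul_of_pos_left (4 * n + 16) (Nat.two_pow_pos s)).trans (Nat.le_add_left _ _)

theorem fl_fg (hM : Odd M) (hπ : Unif π) : ∀ n, (fl M π n).FG
  | 0 => Submodule.fg_bot
  | _ + 1 => fg_Fil2 hM hπ _

/-- `Δ` -/
def yy (M : ℕ) [NeZero M] (R : Type) [CommRing R] : FT M R := kt M (cx R M DZ)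

theorem yy_mem {n : ℕ} {v : FT M (RR π)} (hv : v ∈ fl M π n) (a : ℕ) :
    yy M (RR π) ^ a * v ∈ fl M π (n + 3 * a) := by
  induction a with
  | zero => simpa using hv
  | succ a ih =>
    rw [pow_succ', mul_assoc, show n + 3 * (a + 1) = n + 3 * a + 3 by ring]
    generalize n + 3 * a = m at ih
    cases m with
    | zero =>
      rw [(Submodule.mem_bot O).1 ih, mul_zero]
      exact zero_mem _
    | succ m => exact Fil2_cx (j := 6) D12_mem ih

theorem yy_strict (hM : Odd M) (hπ : Unif π) {n : ℕ} (hn : 0 < n) {h : FT M (RR π)}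
    (hh : yy M (RR π) ^ (2 * n) * h ∈ fl M π (6 * n - 1)) : h = 0 := by
  obtain ⟨U, hU, hD⟩ := D_eq (O := O) (M := M)
  let q := Ideal.Quotient.mk (Ideal.span {algebraMap O (AA O) π})
  have hy : ∀ g, (yy M (RR π) ^ (2 * n) * h) g =
      PowerSeries.X ^ (M * (2 * n)) * (U.map q ^ (2 * n) * h g) := fun g => by
    have e : yy M (RR π) g = PowerSeries.X ^ M * U.map q := by
      rw [yy, ← red_cx, kt_cx]
      change (DT O M g).map q = _
      rw [hD, map_mul, map_pow, PowerSeries.map_X]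
    rw [Pi.mul_apply, Pi.pow_apply, e, mul_pow, ← pow_mul, mul_assoc]
  rw [show 6 * n - 1 = 6 * n - 2 + 1 by omega] at hh
  obtain ⟨w, hw, e⟩ := hh
  have h0 : red M π w = 0 := by
    refine red_of_res hM hπ (gal_L2 hw) (sturm_two hw (N := M * (2 * n)) ?_ fun g => ?_)
    · have := hM.pos
      obtain ⟨m, rfl⟩ : ∃ m, n = m + 1 := ⟨n - 1, by omega⟩
      rw [show 6 * (m + 1) - 2 = 6 * m + 4 by omega]
      nlinarith
    · rw [PowerSeries.X_pow_dvd_iff]
      intro m hm
      rw [PowerSeries.coeff_map]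
      refine res_of_red hπ ?_
      rw [← red_coeff, show red M π w = _ from e, hy, PowerSeries.coeff_X_pow_mul', if_neg]
      omega
  funext g
  have h1 := hy g
  rw [← e, AlgHom.toLinearMap_apply, h0, Pi.zero_apply, ← mul_zero (PowerSeries.X ^ (M * (2 * n))),
    PowerSeries.X_pow_mul_inj] at h1
  exact ((hU.map (PowerSeries.map q)).pow _).mul_right_eq_zero.1 h1.symm

/-- the operators which preserve the filtration and almost commute with the powers of `Δ ^ 2` -/
def AP (M : ℕ) [NeZero M] {π : O} (hπ : Unif π) : Subalgebra O (Module.End O (FT M (RR π))) where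
  carrier := {C | (∀ w, ∀ v ∈ fl M π w, C v ∈ fl M π w) ∧ ∀ i m w, ∀ v ∈ fl M π w,
    C (yy M (RR π) ^ (2 * (2 ^ i * m)) * v) - yy M (RR π) ^ (2 * (2 ^ i * m)) * C v ∈
      fl M π (w + (6 * (2 ^ i * m) - 2 ^ i))}
  mul_mem' := fun {C C'} h h' => ⟨fun w v hv => h.1 w _ (h'.1 w v hv), fun i m w v hv => by
    have := add_mem (h.1 _ _ (h'.2 i m w v hv)) (h.2 i m w _ (h'.1 w v hv))
    rwa [map_sub, sub_add_sub_cancel] at this⟩
  add_mem' := fun {C C'} h h' => ⟨fun w v hv => add_mem (h.1 w v hv) (h'.1 w v hv),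
    fun i m w v hv => by
      have := add_mem (h.2 i m w v hv) (h'.2 i m w v hv)
      rwa [sub_add_sub_comm, ← mul_add] at this⟩
  algebraMap_mem' := fun c => ⟨fun w v hv => Submodule.smul_mem _ c hv, fun i m w v hv => by
    rw [Module.algebraMap_end_apply, Module.algebraMap_end_apply, mul_smul_comm, sub_self]
    exact zero_mem _⟩

theorem rt_AP (hπ : Unif π) (g : GM M) : (rt O (RR π) g).toLinearMap ∈ AP M hπ := by
  refine ⟨?_, fun i m w v hv => ?_⟩
  · rintro (_ | n) v hv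
    · rw [(Submodule.mem_bot O).1 hv, map_zero]
      exact zero_mem _
    · obtain ⟨w, hw, rfl⟩ := hv
      refine ⟨rt O _ g w, ⟨?_, ?_⟩, rfl⟩
      · have := L_rt hw.1 g
        rwa [LinearMap.add_apply, Module.End.one_apply, map_add, ← ep_rt] at this
      · have := L_rt hw.2 g
        rwa [LinearMap.sub_apply, Module.End.one_apply, map_sub, ← ep_rt] at this
  · rw [AlgHom.toLinearMap_apply, AlgHom.toLinearMap_apply, map_mul, map_pow,
      show rt O (RR π) g (yy M (RR π)) = yy M (RR π) from rfl, sub_self]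
    exact zero_mem _

theorem S2_AP (hπ : Unif π) (i p : ℕ) (u : (ZMod M)ˣ) : S2 O (RR π) i p u ∈ AP M hπ :=
  mul_mem (nsmul_mem (rt_AP hπ _) _) (add_mem (one_mem _) (nsmul_mem (sub_mem (one_mem _)
    (zsmul_mem (rt_AP hπ _) _)) _))

theorem bt_mem (hπ : Unif π) {p : ℕ} (hp : p ≠ 0) (ho : Odd p) {u : (ZMod M)ˣ}
    (hT : ∀ i, ∀ w ∈ L O M (i + 1), Tf O (AA O) i p u w ∈ L O M (i + 1)) {w N : ℕ}
    {v : FT M (RR π)} (hv : v ∈ fl M π w) {x : PowerSeries (RR π) × PowerSeries (RR π)}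
    (hx : x ∈ Mon (PowerSeries.expand p hp (cx (RR π) M DZ), cx (RR π) M DZ)
      (h1 (RR π) M hp, h2 (RR π) M hp) N) : bt O p u x v ∈ fl M π (w + N) := by
  induction hx using AddSubgroup.closure_induction with
  | mem x hx =>
    obtain ⟨a, b, hab, rfl⟩ := hx
    rw [Prod.pow_mk, ← map_pow (PowerSeries.expand p hp), bt_left, map_pow]
    refine fl_mono hπ (show w + b + 3 * a ≤ w + N by omega) (yy_mem ?_ a)
    cases w with
    | zero =>
      rw [(Submodule.mem_bot O).1 hv]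
      simp [bt]
    | succ n =>
      obtain ⟨w, hw, rfl⟩ := hv
      rw [show n + 1 + b = n + b + 1 by ring]
      refine ⟨_, (congrArg (fun k => _ ∈ L2 O M k)
        (show 4 * n + 3 + 1 + 4 * b = 4 * (n + b) + 4 by ring)).mp
          (Bt_mem hp ho hT b (4 * n + 3) hw), ?_⟩
      rw [AlgHom.toLinearMap_apply, V.red, mp_Bt, map_pow, map_pow, map_h1, map_h2,
        Bt_eq (two_RR hπ) _ ho]
      rfl
  | zero => rw [bt_zero]; exact zero_mem _
  | add x y _ _ hx hy => rw [bt_add]; exact add_mem hx hy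
  | neg x _ hx => rw [bt_neg]; exact neg_mem hx

/-- **the window estimate** -/
theorem T2_AP (hπ : Unif π) {p : ℕ} (ho : Odd p) {u : (ZMod M)ˣ}
    (hT : ∀ i, ∀ w ∈ L O M (i + 1), Tf O (AA O) i p u w ∈ L O M (i + 1)) (j : ℕ) :
    T2 O (RR π) j p u ∈ AP M hπ := by
  have hp : p ≠ 0 := ho.pos.ne'
  have h2' := two_RR hπ
  refine ⟨fun w v hv => ?_, fun i m w v hv => ?_⟩
  · rw [T2_eq h2' j ho]
    exact bt_mem hπ hp ho hT (N := 0) hv (by simpa using Mon.mem _ _ 0 0 le_rfl)
  · have t : (2 : PowerSeries (RR π) × PowerSeries (RR π)) = 0 :=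
      Prod.ext (two_PS h2') (two_PS h2')
    have h := window_mon t (PowerSeries.expand p hp (cx (RR π) M DZ), cx (RR π) M DZ)
      (h1 (RR π) M hp, h2 (RR π) M hp) (i + 1) m
    rw [as_pair h2' hp ho, show 2 ^ (i + 1) * m = 2 * (2 ^ i * m) by ring] at h
    have h3 := bt_mem hπ hp ho hT hv h
    rw [sub_eq_add_neg, bt_add, bt_neg, Prod.pow_mk, Prod.pow_mk,
      ← map_pow (PowerSeries.expand p hp), ← bt_right,
      ← mul_one (_, _), bt_left, map_pow, ← T2_eq h2' j ho, ← T2_eq h2' j ho,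
      ← sub_eq_add_neg] at h3
    refine fl_mono hπ ?_ h3
    rw [pow_succ]
    omega

end Vale.Agent.P022D.Pur
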