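import Vale.Agent.P022D.Pur.Dim

/-!
P022D, purity: the image of a non zero approximable map grows linearly.
-/

open IsLocalRing

namespace Vale.Agent.P022D.Pur

variable {F : Type*} [Field F] {V V' : Type*} [AddCommGroup V] [Module F V]
  [AddCommGroup V'] [Module F V'] {d : ℕ} {A : FZ F V d} {B : FZ F V' d}

/-- **Linear growth.** -/
theorem linear_growth (hd : 0 < d) (hB : B.Strict) (hfin : ∀ n, FiniteDimensional F (B.fil n))
    {c : ℕ} {τ : V →ₗ[F] V'} (hτ : Appr A B c τ) (hne : τ ≠ 0) :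
    ∃ a : ℕ, 0 < a ∧ ∀ m : ℕ,
      m ≤ Module.finrank F (LinearMap.range τ ⊓ B.fil (a * (m + 1)) : Submodule F V') := by
  obtain ⟨g₀, hg₀⟩ : ∃ g, τ g ≠ 0 := by
    by_contra h
    push Not at h
    exact hne (LinearMap.ext h)
  obtain ⟨w, hw⟩ := A.exh g₀
  obtain ⟨i, hi⟩ : ∃ i : ℕ, w + c < 2 ^ i := ⟨w + c, Nat.lt_two_pow_self⟩
  set P := 2 ^ i with hP
  have hY : P ≤ d * P := Nat.le_mul_of_pos_left _ hd
  have hfd : ∀ n, FiniteDimensional F (LinearMap.range τ ⊓ B.fil n : Submodule F V') := fun n =>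
    have := hfin n
    Submodule.finiteDimensional_of_le inf_le_right
  have key : ∀ m : ℕ, m ≤ Module.finrank F
      (LinearMap.range τ ⊓ B.fil (d * P * (m + 1) - 1) : Submodule F V') := by
    intro m
    induction m with
    | zero => exact Nat.zero_le _
    | succ m ih =>
      have := hfd (d * P * (m + 1 + 1) - 1)
      have e1 : d * P * (m + 1 + 1) = d * (P * (m + 1)) + d * P := by ring
      have e2 : d * P * (m + 1) = d * (P * (m + 1)) := by ring
      have e3 : P ≤ d * (P * (m + 1)) := by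
        rw [← e2]
        exact hY.trans (Nat.le_mul_of_pos_right _ (Nat.succ_pos m))
      refine Nat.succ_le_of_lt (ih.trans_lt (Submodule.finrank_lt_finrank_of_lt ?_))
      refine lt_of_le_of_ne (inf_le_inf_left _ (B.mono (by omega))) fun h => ?_
      have h1 : τ ((A.z ^ (P * (m + 1))) g₀) ∈
          LinearMap.range τ ⊓ B.fil (d * P * (m + 1 + 1) - 1) :=
        ⟨LinearMap.mem_range_self _ _, B.mono (by omega) (hτ.1 _ _ (A.pow_mem _ w hw))⟩
      rw [← h, e2] at h1
      have h2 := sub_mem h1.2 (B.mono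
        (show w + c + (d * (P * (m + 1)) - P) ≤ d * (P * (m + 1)) - 1 by omega)
        (hτ.2 i (m + 1) w g₀ hw))
      rw [sub_sub_cancel] at h2
      exact hg₀ (hB _ _ (Nat.mul_pos (by omega) (Nat.succ_pos m)) h2)
  refine ⟨d * P, by omega, fun m => (key m).trans ?_⟩
  have := hfd (d * P * (m + 1))
  exact Submodule.finrank_mono (inf_le_inf_left _ (B.mono (Nat.sub_le _ _)))

variable {T : Type*} [CommRing T] [IsLocalRing T] {K : Submodule F V'}
  {μ : T →+* Module.End F K}

/-- the image of an element of `T` that acts non trivially grows linearly -/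
theorem Adm.linear_growth (h : Adm B K μ) {t : T} (ht : μ t ≠ 0) :
    ∃ a : ℕ, 0 < a ∧ ∀ m : ℕ, m ≤ Module.finrank F
      ((LinearMap.range (μ t)).map K.subtype ⊓ B.fil (a * (m + 1)) : Submodule F V') := by
  obtain ⟨e, he, heK, he1⟩ := h.proj
  let e' : V' →ₗ[F] K := e.codRestrict K heK
  have he' : ∀ f : K, e' f = f := fun f => Subtype.ext (he1 f f.2)
  have hne : K.subtype ∘ₗ (μ t ∘ₗ e') ≠ 0 := fun h0 => ht (by
    ext f
    have := LinearMap.congr_fun h0 f
    rwa [LinearMap.comp_apply, LinearMap.comp_apply, he'] at this)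
  obtain ⟨a, ha, hm⟩ :=
    Pur.linear_growth h.pos h.strict h.fin (h.appr_comp (τ := e') he t) hne
  refine ⟨a, ha, fun m => (hm m).trans ?_⟩
  have := h.fin (a * (m + 1))
  have : FiniteDimensional F ((LinearMap.range (μ t)).map K.subtype ⊓ B.fil (a * (m + 1)) :
      Submodule F V') := Submodule.finiteDimensional_of_le inf_le_right
  refine Submodule.finrank_mono (inf_le_inf_right _ ?_)
  rintro _ ⟨f, rfl⟩
  exact ⟨μ t (e' f), LinearMap.mem_range_self _ _, rfl⟩

end Vale.Agent.P022D.Pur
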