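import Vale.Agent.P022D.Pur.Fz
import Vale.Agent.P022D.V.Form

/-!
P022D, purity: the output. A space of forms modulo the maximal ideal which is cut out of a
`Δ ^ 2`-stable space by limits of Hecke operators has only components of dimension at least two.
-/

set_option linter.all false

noncomputable section

namespace Vale.Agent.P022D.Pur

open Vale.Agent.P022D.V Vale.Agent.P022.H790.A IsLocalRing

/-- the algebra of the Hecke operators and of the right translations -/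
def HA (O R : Type) [CommRing O] [CommRing R] [Algebra O R] (M i : ℕ) :
    Subalgebra O (Module.End O (FT M R)) :=
  Algebra.adjoin O {t | (∃ (p : ℕ) (u : (ZMod M)ˣ), p.Prime ∧ p ≠ 2 ∧ (u : ZMod M) = p ∧
    (t = T2 O R i p u ∨ t = S2 O R i p u)) ∨ ∃ g, t = (rt O R g).toLinearMap}

section formal

variable {O R : Type} [CommRing O] [CommRing R] [Algebra O R] {M i : ℕ}

theorem T2_HA {p : ℕ} {u : (ZMod M)ˣ} (hp : p.Prime) (h2 : p ≠ 2) (hu : (u : ZMod M) = p) :
    T2 O R i p u ∈ HA O R M i := Algebra.subset_adjoin (Or.inl ⟨p, u, hp, h2, hu, Or.inl rfl⟩)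

theorem S2_HA {p : ℕ} {u : (ZMod M)ˣ} (hp : p.Prime) (h2 : p ≠ 2) (hu : (u : ZMod M) = p) :
    S2 O R i p u ∈ HA O R M i := Algebra.subset_adjoin (Or.inl ⟨p, u, hp, h2, hu, Or.inr rfl⟩)

theorem rt_HA (g : GM M) : (rt O R g).toLinearMap ∈ HA O R M i :=
  Algebra.subset_adjoin (Or.inr ⟨g, rfl⟩)

/-- `u` is a limit of operators which preserve `N` -/
def Lm (i : ℕ) (N : Submodule O (FT M R)) {Y : Type} [AddCommGroup Y] [Module O Y]
    (ι u : Y →ₗ[O] FT M R) : Prop :=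
  ∀ s : Finset Y, ∃ C ∈ HA O R M i, (∀ v ∈ N, C v ∈ N) ∧ ∀ y ∈ s, u y = C (ι y)

/-- `K` is the image of `N` under a limit of operators -/
def Cut (i : ℕ) (N K : Submodule O (FT M R)) : Prop :=
  ∃ e : N →ₗ[O] FT M R, Lm i N N.subtype e ∧ LinearMap.range e = K

variable {N K : Submodule O (FT M R)} {Y : Type} [AddCommGroup Y] [Module O Y]

theorem Cut.refl (i : ℕ) (N : Submodule O (FT M R)) : Cut i N N :=
  ⟨N.subtype, fun _ => ⟨1, one_mem _, fun _ h => h, fun _ _ => rfl⟩, N.range_subtype⟩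

theorem Cut.le (h : Cut i N K) : K ≤ N := by
  obtain ⟨e, h1, rfl⟩ := h
  rintro _ ⟨v, rfl⟩
  obtain ⟨C, -, h2, h3⟩ := h1 {v}
  rw [h3 v (Finset.mem_singleton_self v)]
  exact h2 _ v.2

theorem Cut.exists (h : Cut i N K) {ι : Y →ₗ[O] FT M R} (hι : Function.Injective ι)
    (hr : LinearMap.range ι = K) :
    ∃ e : N →ₗ[O] Y, Function.Surjective e ∧ Lm i N N.subtype (ι ∘ₗ e) := by
  obtain ⟨e, h1, h2⟩ := h
  let e' : N →ₗ[O] Y := (LinearEquiv.ofInjective ι hι).symm.toLinearMap ∘ₗ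
    e.codRestrict _ fun v => by rw [hr, ← h2]; exact LinearMap.mem_range_self e v
  have h3 : ∀ v, ι (e' v) = e v := fun v =>
    congrArg Subtype.val ((LinearEquiv.ofInjective ι hι).apply_symm_apply _)
  refine ⟨e', fun y => ?_, by rwa [show ι ∘ₗ e' = e from LinearMap.ext h3]⟩
  obtain ⟨v, hv⟩ : ι y ∈ LinearMap.range e := by
    rw [h2, ← hr]; exact LinearMap.mem_range_self ι y
  exact ⟨v, hι ((h3 v).trans hv)⟩

/-- the image of a cut out space under a limit of operators -/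
theorem Cut.map (h : Cut i N K) {ι : Y →ₗ[O] FT M R} (hι : Function.Injective ι)
    (hr : LinearMap.range ι = K) {u : Y →ₗ[O] FT M R} (hu : Lm i N ι u) :
    Cut i N (LinearMap.range u) := by
  classical
  obtain ⟨e, h1, h2⟩ := h.exists hι hr
  refine ⟨u ∘ₗ e, fun s => ?_, LinearMap.range_comp_of_range_eq_top _
    (LinearMap.range_eq_top.2 h1)⟩
  obtain ⟨C, a1, a2, a3⟩ := h2 s
  obtain ⟨C', b1, b2, b3⟩ := hu (s.image e)
  exact ⟨C' * C, mul_mem b1 a1, fun v hv => b2 _ (a2 v hv), fun y hy =>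
    (b3 _ (Finset.mem_image_of_mem e hy)).trans (congrArg C' (a3 y hy))⟩

theorem Lm.span {ι u : Y →ₗ[O] FT M R} (h : Lm i N ι u) {P : Submodule O Y} (hP : P.FG) :
    ∃ C ∈ HA O R M i, (∀ v ∈ N, C v ∈ N) ∧ ∀ y ∈ P, u y = C (ι y) := by
  obtain ⟨s, rfl⟩ := hP
  obtain ⟨C, h1, h2, h3⟩ := h s
  exact ⟨C, h1, h2, fun y hy => LinearMap.eqOn_span (f := u) (g := C ∘ₗ ι) h3 hy⟩

variable [NeZero M]

theorem ml_cx {R' : Type} [CommRing R'] [Algebra O R'] (φ : R →ₗ[O] R') (s : PowerSeries ℤ)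
    (v : FT M R) : ml O M φ (kt M (cx R M s) * v) = kt M (cx R' M s) * ml O M φ v := by
  funext g
  ext n
  rw [ml_coeff, ← map_cx (Int.castRingHom R), ← map_cx (Int.castRingHom R'), Pi.mul_apply,
    Pi.mul_apply, PowerSeries.coeff_mul, PowerSeries.coeff_mul, map_sum]
  refine Finset.sum_congr rfl fun x _ => ?_
  rw [kt_apply, kt_apply, PowerSeries.coeff_map, PowerSeries.coeff_map, ml_coeff, eq_intCast,
    eq_intCast, ← zsmul_eq_mul, ← zsmul_eq_mul, map_zsmul]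

theorem ml_yy {R' : Type} [CommRing R'] [Algebra O R'] (φ : R →ₗ[O] R') (a : ℕ) (v : FT M R) :
    ml O M φ (yy M R ^ a * v) = yy M R' ^ a * ml O M φ v := by
  rw [yy, yy, ← map_pow, ← map_pow, ← map_pow, ← map_pow, ml_cx]

theorem rt_yy (g : GM M) (a : ℕ) (v : FT M R) :
    rt O R g (yy M R ^ a * v) = yy M R ^ a * rt O R g v := rfl

/-- the group algebra commutes with `Δ` -/
theorem adjoin_yy {C : Module.End O (FT M R)}
    (hC : C ∈ Algebra.adjoin O (Set.range fun g : GM M => (rt O R g).toLinearMap)) (a : ℕ)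
    (v : FT M R) : C (yy M R ^ a * v) = yy M R ^ a * C v := by
  induction hC using Algebra.adjoin_induction generalizing v with
  | mem x hx =>
    obtain ⟨g, rfl⟩ := hx
    rfl
  | algebraMap c => rw [Module.algebraMap_end_apply, Module.algebraMap_end_apply, mul_smul_comm]
  | add x y _ _ hx hy => rw [LinearMap.add_apply, LinearMap.add_apply, hx, hy, mul_add]
  | mul x y _ _ hx hy => rw [Module.End.mul_apply, Module.End.mul_apply, hy, hx]

theorem Eg_yy {H : Set (GM M)} {χ : GM M → O} (a : ℕ) {v : FT M R} (hv : v ∈ Eg O R H χ) :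
    yy M R ^ a * v ∈ Eg O R H χ := fun h hh => by rw [rt_yy, hv h hh, mul_smul_comm]

theorem Iv_yy {H : Set (GM M)} (a : ℕ) {v : FT M R} (hv : v ∈ Iv O R H) :
    yy M R ^ a * v ∈ Iv O R H := Eg_yy a hv

theorem Wh_yy {z : O} (a : ℕ) {v : FT M R} (hv : v ∈ Wh O R M z) :
    yy M R ^ a * v ∈ Wh O R M z := fun x => by rw [rt_yy, ← mul_smul_comm, hv x]

theorem even_sq (h2 : (2 : R) = 0) (s : PowerSeries R) {n : ℕ} (hn : Odd n) :
    (s ^ 2).coeff n = 0 := by
  rw [sq, PowerSeries.coeff_mul]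
  refine Finset.sum_involution (fun x _ => x.swap) (fun x _ => ?_) (fun x hx _ h => ?_)
    (fun x hx => by simpa [add_comm] using hx) (fun x _ => rfl)
  · rw [Prod.fst_swap, Prod.snd_swap, mul_comm (s.coeff x.2), ← two_mul, h2, zero_mul]
  · have h1 : x.2 = x.1 := congrArg Prod.fst h
    rw [Finset.HasAntidiagonal.mem_antidiagonal] at hx
    obtain ⟨c, hc⟩ := hn
    omega

theorem Od_yy (h2 : (2 : R) = 0) {v : FT M R} (hv : v ∈ Od O M R) :
    yy M R ^ 2 * v ∈ Od O M R := fun g n hn => by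
  rw [Pi.mul_apply, Pi.pow_apply, PowerSeries.coeff_mul]
  refine Finset.sum_eq_zero fun x hx => ?_
  rw [Finset.HasAntidiagonal.mem_antidiagonal] at hx
  rcases Nat.even_or_odd x.1 with h | h
  · rw [hv g x.2 ((Nat.even_add.1 (hx ▸ hn)).1 h), mul_zero]
  · rw [even_sq h2 _ h, zero_mul]

end formal

variable {O : Type} [CommRing O] [Co O] {M : ℕ} [NeZero M] {π : O} {R : Type} [CommRing R]
  [Algebra O R] {φ : RR π →ₗ[O] R} {N K : Submodule O (FT M R)} {i : ℕ}

/-- `N` is a space of forms modulo `π` (with coefficients embedded by `φ`) which is stable under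
the multiplication by `Δ ^ 2` -/
structure Amb (π : O) (φ : RR π →ₗ[O] R) (N : Submodule O (FT M R)) : Prop where
  inj : Function.Injective φ
  le : N ≤ (V2 M 0 π).map (ml O M φ)
  mul : ∀ v ∈ N, yy M R ^ 2 * v ∈ N

theorem Amb.inf (h : Amb π φ N) {N' : Submodule O (FT M R)}
    (h' : ∀ v ∈ N, v ∈ N' → yy M R ^ 2 * v ∈ N') : Amb π φ (N ⊓ N') :=
  ⟨h.inj, inf_le_left.trans h.le, fun v hv => ⟨h.mul v hv.1, h' v hv.1 hv.2⟩⟩

theorem Amb.of_le (h : Amb π φ N) {N' : Submodule O (FT M R)} (h1 : N' ≤ N)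
    (h' : ∀ v ∈ N', yy M R ^ 2 * v ∈ N') : Amb π φ N' := ⟨h.inj, h1.trans h.le, h'⟩

theorem V2_eq (hπ : Unif π) (k l : ℕ) : V2 M k π = V2 M l π := by
  ext v
  rw [mem_V2 hπ, mem_V2 hπ]

theorem amb_X2 (hπ : Unif π) (hφ : Function.Injective φ) (i : ℕ) :
    Amb π φ ((X2 M i π).map (ml O M φ)) := by
  refine ⟨hφ, Submodule.map_mono (inf_le_left.trans (V2_eq hπ _ _).le), ?_⟩
  rintro _ ⟨v, ⟨h1, h2⟩, rfl⟩
  obtain ⟨n, hn⟩ := (mem_V2 hπ).1 h1
  exact ⟨_, ⟨(mem_V2 hπ).2 ⟨_, yy_mem hn 2⟩, Od_yy (two_RR hπ) h2⟩, ml_yy φ 2 v⟩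

theorem ml_id : ml O M (LinearMap.id : R →ₗ[O] R) = LinearMap.id := by
  ext v g n
  simp [ml_coeff]

theorem amb_X2' (hπ : Unif π) (i : ℕ) : Amb π LinearMap.id (X2 M i π) := by
  have h := amb_X2 (M := M) (φ := LinearMap.id) hπ Function.injective_id i
  rwa [ml_id, Submodule.map_id] at h

theorem ml_injective (h : Function.Injective φ) : Function.Injective (ml O M φ) := by
  intro v w e
  ext g n
  exact h (by rw [← ml_coeff, ← ml_coeff, e])

theorem HA_lift (hK : HK O) (hM : Odd M) (hπ : Unif π) (φ : RR π →ₗ[O] R)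
    {C : Module.End O (FT M R)} (hC : C ∈ HA O R M i) :
    ∃ C' ∈ AP M hπ, ∀ v, C (ml O M φ v) = ml O M φ (C' v) := by
  induction hC using Algebra.adjoin_induction with
  | mem x hx =>
    rcases hx with ⟨p, u, hp, h2, hu, rfl | rfl⟩ | ⟨g, rfl⟩
    · exact ⟨_, T2_AP hπ (hp.odd_of_ne_two h2) (fun j => hK M j p u hM hp hu) i,
        fun v => (ml_T2 φ i p u v).symm⟩
    · exact ⟨_, S2_AP hπ i p u, fun v => (ml_S2 φ i p u v).symm⟩
    · exact ⟨_, rt_AP hπ g, fun v => rfl⟩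
  | algebraMap c => exact ⟨algebraMap O _ c, Subalgebra.algebraMap_mem _ c, fun v => by
      rw [Module.algebraMap_end_apply, Module.algebraMap_end_apply, map_smul]⟩
  | add x y _ _ hx hy =>
    obtain ⟨C, h1, h2⟩ := hx
    obtain ⟨C', h1', h2'⟩ := hy
    exact ⟨C + C', add_mem h1 h1', fun v => by
      rw [LinearMap.add_apply, LinearMap.add_apply, h2, h2', map_add]⟩
  | mul x y _ _ hx hy =>
    obtain ⟨C, h1, h2⟩ := hx
    obtain ⟨C', h1', h2'⟩ := hy
    exact ⟨C * C', mul_mem h1 h1', fun v => by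
      rw [Module.End.mul_apply, Module.End.mul_apply, h2', h2]⟩

/-- the filtered space -/
def Amb.fz (h : Amb π φ N) (hπ : Unif π) : FZ O N 6 where
  fil n := ((fl M π n).map (ml O M φ)).comap N.subtype
  z := (LinearMap.mulLeft O (yy M R ^ 2)).restrict h.mul
  mono := fun _ _ e => Submodule.comap_mono (Submodule.map_mono (fl_mono hπ e))
  exh := fun v => by
    obtain ⟨x, hx, e⟩ := h.le v.2
    obtain ⟨n, hn⟩ := (mem_V2 hπ).1 hx
    exact ⟨n, x, hn, e⟩
  step := by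
    rintro n v ⟨x, hx, e⟩
    exact ⟨_, yy_mem hx 2, (ml_yy φ 2 x).trans (congrArg (yy M R ^ 2 * ·) e)⟩

theorem Amb.z_pow (h : Amb π φ N) (hπ : Unif π) (n : ℕ) (v : N) :
    ((((h.fz hπ).z ^ n) v : N) : FT M R) = yy M R ^ (2 * n) * v := by
  induction n with
  | zero => simp
  | succ n ih =>
    rw [pow_succ', Module.End.mul_apply, mul_add, mul_one, pow_add, mul_comm _ (yy M R ^ 2),
      mul_assoc, ← ih]
    rfl

theorem Amb.strict (h : Amb π φ N) (hM : Odd M) (hπ : Unif π) : (h.fz hπ).Strict := by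
  rintro n v hn ⟨x, hx, e⟩
  obtain ⟨w, -, hw⟩ := h.le v.2
  rw [Submodule.subtype_apply, h.z_pow, ← hw, ← ml_yy] at e
  rw [ml_injective h.inj e] at hx
  exact Subtype.ext (by rw [← hw, yy_strict hM hπ hn hx, map_zero]; rfl)

theorem fg_comap (hM : Odd M) (hπ : Unif π) {Y : Type} [AddCommGroup Y] [Module O Y]
    {ι : Y →ₗ[O] FT M R} (hι : Function.Injective ι) (n : ℕ) :
    (((fl M π n).map (ml O M φ)).comap ι).FG := by
  have := noeth hπ
  exact Submodule.fg_of_fg_map_injective ι hι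
    (((fl_fg hM hπ n).map _).of_le (Submodule.map_comap_le _ _))

theorem Amb.appr (h : Amb π φ N) (hK : HK O) (hM : Odd M) (hπ : Unif π)
    {C : Module.End O (FT M R)} (hC : C ∈ HA O R M i) (hN : ∀ v ∈ N, C v ∈ N) :
    Appr (h.fz hπ) (h.fz hπ) 0 (C.restrict hN) := by
  obtain ⟨C', h1, h2⟩ := HA_lift hK hM hπ φ hC
  refine ⟨?_, ?_⟩
  · rintro w v ⟨x, hx, e⟩
    exact ⟨_, h1.1 w x hx, (h2 x).symm.trans (congrArg C e)⟩
  · rintro j m w v ⟨x, hx, e⟩
    refine ⟨_, h1.2 j m w x hx, ?_⟩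
    rw [Submodule.subtype_apply] at e
    rw [Submodule.subtype_apply, Submodule.coe_sub, h.z_pow, LinearMap.restrict_coe_apply,
      LinearMap.restrict_coe_apply, h.z_pow, map_sub, ← h2, ml_yy, ml_yy, ← h2, e]

theorem max_pi (hπ : Unif π) : (Ideal.span {π}).IsMaximal := by
  rw [Ideal.isMaximal_iff]
  refine ⟨fun h => hπ.nu (isUnit_of_dvd_one (Ideal.mem_span_singleton.1 h)), fun J x _ hx hJ => ?_⟩
  have hu : IsUnit x := by
    by_contra h
    exact hx (Ideal.mem_span_singleton.2 (hπ.dvd x h))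
  rw [J.eq_top_of_isUnit_mem hJ hu]
  trivial

theorem Amb.tors (h : Amb π φ N) : ∀ a ∈ Ideal.span {π}, ∀ v : N, a • v = 0 := by
  intro a ha v
  obtain ⟨c, rfl⟩ := Ideal.mem_span_singleton'.1 ha
  obtain ⟨x, -, e⟩ := h.le v.2
  have h0 : algebraMap O (RR π) π = 0 :=
    Ideal.Quotient.eq_zero_iff_mem.2 (Ideal.mem_span_singleton_self _)
  refine Subtype.ext ?_
  rw [Submodule.coe_smul, ← e, ← map_smul, mul_smul, ← algebraMap_smul (RR π) π, h0, zero_smul,
    smul_zero, map_zero]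
  rfl

/-- the part on which commuting operators are locally nilpotent is cut out -/
theorem Amb.cut (h : Amb π φ N) (hK : HK O) (hM : Odd M) (hπ : Unif π) {J : Type}
    (a : J → Module.End O (FT M R)) (ha : ∀ j, a j ∈ HA O R M i) (hN : ∀ j, ∀ v ∈ N, a j v ∈ N)
    (hc : ∀ j k, ∀ v ∈ N, a j (a k v) = a k (a j v))
    (hr : ∀ v, v ∈ K ↔ v ∈ N ∧ ∀ j, ∃ n : ℕ, (a j ^ n) v = 0) : Cut i N K := by
  have := max_pi hπ
  have hp : ∀ j n (v : N), (((((a j).restrict (hN j)) ^ n) v : N) : FT M R) = (a j ^ n) v :=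
    fun j n v => by rw [Module.End.pow_restrict]; rfl
  obtain ⟨e, h1, h2, h3⟩ := exists_proj_ring (B := h.fz hπ) (Ideal.span {π}) h.tors
    (fg_comap hM hπ N.injective_subtype) (fun j => (a j).restrict (hN j))
    (fun j => h.appr hK hM hπ (ha j) (hN j))
    (fun j k => LinearMap.ext fun v => Subtype.ext (hc j k v v.2))
  refine ⟨N.subtype ∘ₗ e, fun s => ?_, ?_⟩
  · choose n hn using (h.fz hπ).exh
    obtain ⟨C, hC, h4⟩ := h3 (s.sup n)
    have : ∃ C' ∈ HA O R M i, (∀ v ∈ N, C' v ∈ N) ∧ ∀ v : N, (C v : FT M R) = C' v := by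
      clear h4
      induction hC using Algebra.adjoin_induction with
      | mem x hx =>
        obtain ⟨j, rfl⟩ := hx
        exact ⟨a j, ha j, hN j, fun _ => rfl⟩
      | algebraMap c => exact ⟨algebraMap O _ c, Subalgebra.algebraMap_mem _ c,
          fun v hv => N.smul_mem c hv, fun _ => rfl⟩
      | add x y _ _ hx hy =>
        obtain ⟨C, a1, a2, a3⟩ := hx
        obtain ⟨C', b1, b2, b3⟩ := hy
        exact ⟨C + C', add_mem a1 b1, fun v hv => add_mem (a2 v hv) (b2 v hv), fun v => by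
          rw [LinearMap.add_apply, LinearMap.add_apply, Submodule.coe_add, a3, b3]⟩
      | mul x y _ _ hx hy =>
        obtain ⟨C, a1, a2, a3⟩ := hx
        obtain ⟨C', b1, b2, b3⟩ := hy
        exact ⟨C * C', mul_mem a1 b1, fun v hv => a2 _ (b2 v hv), fun v => by
          rw [Module.End.mul_apply, Module.End.mul_apply, a3, b3]⟩
    obtain ⟨C', b1, b2, b3⟩ := this
    exact ⟨C', b1, b2, fun v hv => (congrArg Subtype.val
      (h4 v ((h.fz hπ).mono (Finset.le_sup hv) (hn v)))).trans (b3 v)⟩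
  · ext v
    rw [hr]
    refine ⟨?_, fun hv => ⟨⟨v, hv.1⟩, congrArg Subtype.val (h2 ⟨v, hv.1⟩ fun j => ?_)⟩⟩
    · rintro ⟨w, rfl⟩
      exact ⟨(e w).2, fun j => (h1 w j).imp fun n hn =>
        (hp j n _).symm.trans (congrArg Subtype.val hn)⟩
    · exact (hv.2 j).imp fun n hn => Subtype.ext ((hp j n _).trans hn)

/-- **Purity.** -/
theorem pure (hK : HK O) (hM : Odd M) (hπ : Unif π) (h : Amb π φ N) (hc : Cut i N K)
    {Y : Type} [AddCommGroup Y] [Module O Y] {ι : Y →ₗ[O] FT M R} (hι : Function.Injective ι)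
    (hr : LinearMap.range ι = K) {T : Type} [CommRing T] [IsLocalRing T] [IsNoetherianRing T]
    (μ : T →+* Module.End O Y) (app : ∀ t, Lm i N ι (ι ∘ₗ μ t))
    (nil : ∀ s ∈ maximalIdeal T, ∀ y, ∃ k : ℕ, μ (s ^ k) y = 0)
    (soc : ∃ s : Finset Y, ∀ y, (∀ t ∈ maximalIdeal T, μ t y = 0) →
      y ∈ Submodule.span O (s : Set Y))
    {p : Ideal T} (hp : p ∈ (RingHom.ker μ).minimalPrimes) : 2 ≤ ringKrullDim (T ⧸ p) := by
  have := max_pi hπ
  obtain ⟨e, he, h1⟩ := hc.exists hι hr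
  let ι' : Y →ₗ[O] N := ι.codRestrict N fun y => hc.le (hr ▸ LinearMap.mem_range_self ι y)
  refine two_le_ring (B := h.fz hπ) (Ideal.span {π}) h.tors (by norm_num) (h.strict hM hπ)
    (fg_comap hM hπ N.injective_subtype) (ι := ι')
    (fun x y hxy => hι (congrArg Subtype.val hxy)) he (Appr.limit fun w => ?_)
    (fun t w => ?_) nil soc hp
  · obtain ⟨C, a1, a2, a3⟩ := h1.span (fg_comap (φ := φ) hM hπ N.injective_subtype w)
    exact ⟨_, h.appr hK hM hπ a1 a2, fun v hv => Subtype.ext (a3 v hv)⟩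
  · obtain ⟨C, a1, a2, a3⟩ := (app t).span (fg_comap (φ := φ) hM hπ hι w)
    exact ⟨_, h.appr hK hM hπ a1 a2, fun y hy => Subtype.ext (a3 y hy)⟩

end Vale.Agent.P022D.Pur
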