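import Vale.Agent.P022D.Pur.Prim

/-!
P022D, purity: the part on which an operator is periodic is cut out.
-/

set_option linter.all false

noncomputable section

namespace Vale.Agent.P022D.Pur

open Vale.Agent.P022D.V IsLocalRing

theorem finite_of_fg {O V : Type} [CommRing O] [AddCommGroup V] [Module O V] (I : Ideal O)
    [Finite (O ⧸ I)] (hV : ∀ a ∈ I, ∀ v : V, a • v = 0) {P : Submodule O V} (hP : P.FG) :
    Finite P := by
  have hV' : Module.IsTorsionBySet O P I := fun v a => Subtype.ext (hV a a.2 v)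
  let _ := hV'.module
  have _ : IsScalarTower O (O ⧸ I) P := hV'.isScalarTower
  have : Module.Finite O P := Module.Finite.iff_fg.2 hP
  have : Module.Finite (O ⧸ I) P := Module.Finite.of_restrictScalars_finite O _ _
  exact Module.finite_of_finite (O ⧸ I)

variable {O : Type} [CommRing O] [Co O] {M : ℕ} [NeZero M] {π : O} {R : Type} [CommRing R]
  [Algebra O R] {φ : RR π →ₗ[O] R} {N K : Submodule O (FT M R)} {i : ℕ}

/-- the part on which an operator is periodic is cut out -/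
theorem Amb.cut_per [Finite (O ⧸ Ideal.span {π})] (h : Amb π φ N) (hK : HK O) (hM : Odd M)
    (hπ : Unif π) {a : Module.End O (FT M R)} (ha : a ∈ HA O R M i) (hN : ∀ v ∈ N, a v ∈ N)
    (hr : ∀ v, v ∈ K ↔ v ∈ N ∧ ∃ n : ℕ, 0 < n ∧ (a ^ n) v = v) : Cut i N K := by
  have := max_pi hπ
  let b : Module.End O N := a.restrict hN
  have hp : ∀ n (v : N), (((b ^ n) v : N) : FT M R) = (a ^ n) v :=
    fun n v => by rw [Module.End.pow_restrict]; rfl
  have hb := (h.appr hK hM hπ ha hN).1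
  obtain ⟨e, h1, h2, h3⟩ := exists_proj_ring (B := h.fz hπ) (Ideal.span {π}) h.tors
    (fg_comap hM hπ N.injective_subtype) (fun _ : Unit => b)
    (fun _ => h.appr hK hM hπ ha hN) (fun _ _ => rfl)
  have key : ∀ C ∈ Algebra.adjoin O (Set.range fun _ : Unit => b), (C * b = b * C ∧
      ∀ w, ∀ v ∈ (h.fz hπ).fil w, C v ∈ (h.fz hπ).fil w) ∧
      ∃ C' ∈ HA O R M i, (∀ v ∈ N, C' v ∈ N) ∧ ∀ v : N, (C v : FT M R) = C' v := by
    intro C hC
    induction hC using Algebra.adjoin_induction with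
    | mem x hx =>
      obtain ⟨j, rfl⟩ := hx
      exact ⟨⟨rfl, hb⟩, a, ha, hN, fun _ => rfl⟩
    | algebraMap c => exact ⟨⟨Algebra.commutes c b, fun w v hv => Submodule.smul_mem _ c hv⟩,
        algebraMap O _ c, Subalgebra.algebraMap_mem _ c,
        fun v hv => N.smul_mem c hv, fun _ => rfl⟩
    | add x y _ _ hx hy =>
      obtain ⟨⟨a0, a4⟩, C, a1, a2, a3⟩ := hx
      obtain ⟨⟨b0, b4⟩, C', b1, b2, b3⟩ := hy
      exact ⟨⟨by rw [add_mul, mul_add, a0, b0], fun w v hv => add_mem (a4 w v hv) (b4 w v hv)⟩,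
        C + C', add_mem a1 b1, fun v hv => add_mem (a2 v hv) (b2 v hv), fun v => by
        rw [LinearMap.add_apply, LinearMap.add_apply, Submodule.coe_add, a3, b3]⟩
    | mul x y _ _ hx hy =>
      obtain ⟨⟨a0, a4⟩, C, a1, a2, a3⟩ := hx
      obtain ⟨⟨b0, b4⟩, C', b1, b2, b3⟩ := hy
      exact ⟨⟨by rw [mul_assoc, b0, ← mul_assoc, a0, mul_assoc],
        fun w v hv => a4 w _ (b4 w v hv)⟩,
        C * C', mul_mem a1 b1, fun v hv => a2 _ (b2 v hv), fun v => by
        rw [Module.End.mul_apply, Module.End.mul_apply, a3, b3]⟩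
  have hc : ∀ v, e (b v) = b (e v) := fun v => by
    obtain ⟨w, hw⟩ := (h.fz hπ).exh v
    obtain ⟨C, hC, h4⟩ := h3 w
    rw [h4 v hw, h4 _ (hb w v hw)]
    exact LinearMap.congr_fun (key C hC).1.1 v
  have hc' : ∀ (n : ℕ) v, e ((b ^ n) v) = (b ^ n) (e v) := fun n => by
    induction n with
    | zero => exact fun _ => rfl
    | succ n ih =>
      intro v
      rw [pow_succ, Module.End.mul_apply, Module.End.mul_apply, ih, hc]
  refine ⟨N.subtype ∘ₗ (1 - e), fun s => ?_, ?_⟩
  · choose n hn using (h.fz hπ).exh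
    obtain ⟨C, hC, h4⟩ := h3 (s.sup n)
    obtain ⟨-, C', b1, b2, b3⟩ := key C hC
    refine ⟨1 - C', sub_mem (one_mem _) b1, fun v hv => sub_mem hv (b2 v hv), fun v hv => ?_⟩
    change ((v - e v : N) : FT M R) = v - C' v
    rw [h4 v ((h.fz hπ).mono (Finset.le_sup hv) (hn v)), Submodule.coe_sub, b3]
  · ext v
    rw [hr]
    refine ⟨?_, ?_⟩
    · rintro ⟨x, rfl⟩
      refine ⟨((1 - e) x).2, ?_⟩
      have h0 : e ((1 - e) x) = 0 := by
        rw [LinearMap.sub_apply, Module.End.one_apply, map_sub, h2 _ (h1 x), sub_self]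
      generalize hy : (1 - e) x = y at h0
      change ∃ n : ℕ, 0 < n ∧ (a ^ n) ((1 - e) x : N) = ((1 - e) x : N)
      rw [hy]
      obtain ⟨w, hw⟩ := (h.fz hπ).exh y
      have : Finite ((h.fz hπ).fil w) :=
        finite_of_fg _ h.tors (fg_comap hM hπ N.injective_subtype w)
      have hm : ∀ n, (b ^ n) y ∈ (h.fz hπ).fil w := fun n => by
        induction n with
        | zero => exact hw
        | succ n ih => rw [pow_succ', Module.End.mul_apply]; exact hb w _ ih
      obtain ⟨k, l, hkl, e1⟩ := Finite.exists_ne_map_eq_of_infinite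
        fun n : ℕ => (⟨(b ^ n) y, hm n⟩ : (h.fz hπ).fil w)
      wlog hlt : k < l generalizing k l
      · exact this l k hkl.symm e1.symm (by omega)
      obtain ⟨d, rfl⟩ := Nat.exists_eq_add_of_lt hlt
      have e2 : (b ^ k) y = (b ^ (k + d + 1)) y := congrArg Subtype.val e1
      have e3 : (b ^ k) ((b ^ (d + 1)) y - y) = 0 := by
        rw [map_sub, ← Module.End.mul_apply, ← pow_add, e2, add_assoc, sub_self]
      have e4 := h2 _ fun _ => ⟨k, e3⟩
      rw [map_sub, hc', h0, map_zero, sub_zero, eq_comm, sub_eq_zero] at e4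
      exact ⟨d + 1, d.succ_pos, (hp _ _).symm.trans (congrArg Subtype.val e4)⟩
    · rintro ⟨hv, n, hn, e1⟩
      have e2 : (b ^ n) ⟨v, hv⟩ = ⟨v, hv⟩ := Subtype.ext ((hp _ _).trans e1)
      have e3 : ∀ k, (b ^ (n * k)) (e ⟨v, hv⟩) = e ⟨v, hv⟩ := fun k => by
        induction k with
        | zero => rfl
        | succ k ih => rw [Nat.mul_succ, pow_add, Module.End.mul_apply, ← hc', e2, ih]
      obtain ⟨k, hk⟩ := h1 ⟨v, hv⟩ ()
      have e4 := e3 k
      obtain ⟨d, hd⟩ := Nat.exists_eq_add_of_le' (Nat.le_mul_of_pos_left k hn)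
      rw [hd, pow_add, Module.End.mul_apply, hk, map_zero] at e4
      exact ⟨⟨v, hv⟩, by
        rw [LinearMap.comp_apply, LinearMap.sub_apply, ← e4, sub_zero]; rfl⟩

end Vale.Agent.P022D.Pur
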