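import Vale.Agent.P022D.Pur.Abs

/-!
P022D, purity: the projector on the `m`-primary part of a filtered space is approximable.
-/

namespace Vale.Agent.P022D.Pur

variable {F : Type*} [Field F] {V : Type*} [AddCommGroup V] [Module F V] {d : ℕ}
  {H : Type*} [CommRing H] [Algebra F H]

/-- the vectors killed by a power of `m` -/
def prim (ρ : H →ₐ[F] Module.End F V) (m : Ideal H) : Submodule F V where
  carrier := {f | ∃ n : ℕ, ∀ a ∈ m ^ n, ρ a f = 0}
  zero_mem' := ⟨0, fun _ _ => map_zero _⟩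
  add_mem' := by
    rintro f g ⟨n, hn⟩ ⟨k, hk⟩
    refine ⟨n + k, fun a ha => ?_⟩
    rw [map_add, hn a (Ideal.pow_le_pow_right (by omega) ha),
      hk a (Ideal.pow_le_pow_right (by omega) ha), add_zero]
  smul_mem' := by
    rintro c f ⟨n, hn⟩
    exact ⟨n, fun a ha => by rw [map_smul, hn a ha, smul_zero]⟩

theorem mem_prim {ρ : H →ₐ[F] Module.End F V} {m : Ideal H} {f : V} :
    f ∈ prim ρ m ↔ ∃ n : ℕ, ∀ a ∈ m ^ n, ρ a f = 0 := Iff.rfl

theorem rho_comm (ρ : H →ₐ[F] Module.End F V) (a b : H) (f : V) :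
    ρ a (ρ b f) = ρ b (ρ a f) := by
  rw [← Module.End.mul_apply, ← map_mul, mul_comm, map_mul, Module.End.mul_apply]

theorem prim_stable {ρ : H →ₐ[F] Module.End F V} {m : Ideal H} (h : H) {f : V}
    (hf : f ∈ prim ρ m) : ρ h f ∈ prim ρ m := by
  obtain ⟨n, hn⟩ := hf
  exact ⟨n, fun a ha => by rw [rho_comm, hn a ha, map_zero]⟩

/-- the vectors killed by an element of `1 + m` -/
def coprim (ρ : H →ₐ[F] Module.End F V) (m : Ideal H) : Submodule F V where
  carrier := {f | ∃ r : H, r - 1 ∈ m ∧ ρ r f = 0}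
  zero_mem' := ⟨1, by simp, map_zero _⟩
  add_mem' := by
    rintro f g ⟨r, hr, hf⟩ ⟨s, hs, hg⟩
    refine ⟨r * s, ?_, ?_⟩
    · have : r * s - 1 = r * (s - 1) + (r - 1) := by ring
      rw [this]
      exact m.add_mem (m.mul_mem_left _ hs) hr
    · rw [map_mul, Module.End.mul_apply, map_add, hg, add_zero, rho_comm, hf, map_zero]
  smul_mem' := by
    rintro c f ⟨r, hr, hf⟩
    exact ⟨r, hr, by rw [map_smul, hf, smul_zero]⟩

theorem coprim_stable {ρ : H →ₐ[F] Module.End F V} {m : Ideal H} (h : H) {f : V}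
    (hf : f ∈ coprim ρ m) : ρ h f ∈ coprim ρ m := by
  obtain ⟨r, hr, hf⟩ := hf
  exact ⟨r, hr, by rw [rho_comm, hf, map_zero]⟩

theorem disjoint_prim (ρ : H →ₐ[F] Module.End F V) (m : Ideal H) :
    Disjoint (prim ρ m) (coprim ρ m) := by
  rw [Submodule.disjoint_def]
  rintro f ⟨n, hn⟩ ⟨r, hr, hf⟩
  have h1 : (1 - r) ^ n ∈ m ^ n :=
    Ideal.pow_mem_pow (by rw [← neg_sub]; exact m.neg_mem hr) n
  have h2 : ∀ k : ℕ, ρ ((1 - r) ^ k) f = f := by
    intro k
    induction k with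
    | zero => simp
    | succ k ih =>
      rw [pow_succ, map_mul, Module.End.mul_apply, map_sub, map_one, LinearMap.sub_apply, hf,
        sub_zero, Module.End.one_apply, ih]
  rw [← h2 n, hn _ h1]

theorem exists_fitting (ρ : H →ₐ[F] Module.End F V) (m : Ideal H) (W : Submodule F V)
    [FiniteDimensional F W] (hW : ∀ h, ∀ f ∈ W, ρ h f ∈ W) :
    ∃ r : H, ∀ f ∈ W, ρ r f ∈ prim ρ m ∧ f - ρ r f ∈ coprim ρ m := by
  let _ : Module H V := Module.compHom V ρ.toRingHom
  have hsm : ∀ (a : H) (f : V), a • f = ρ a f := fun _ _ => rfl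
  have _ : IsScalarTower F H V := ⟨fun c a f => by
    rw [hsm, hsm, map_smul, LinearMap.smul_apply]⟩
  let W' : Submodule H V :=
    { carrier := W
      zero_mem' := W.zero_mem
      add_mem' := W.add_mem
      smul_mem' := fun a f hf => hW a f hf }
  have hfd : Module.Finite F W' := ‹FiniteDimensional F W›
  have _ : IsArtinian H W' := isArtinian_of_tower F inferInstance
  have _ : IsNoetherian H W' := isNoetherian_of_tower F inferInstance
  let c : ℕ →o (Submodule H W')ᵒᵈ :=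
    ⟨fun n => OrderDual.toDual (m ^ n • ⊤), fun a b hab =>
      Submodule.smul_mono_left (Ideal.pow_le_pow_right hab)⟩
  obtain ⟨n, hn⟩ := IsArtinian.monotone_stabilizes c
  have hn' : ∀ k, n ≤ k → (m ^ n • ⊤ : Submodule H W') = m ^ k • ⊤ := fun k hk => hn k hk
  obtain ⟨r, hr, hr'⟩ := Submodule.exists_sub_one_mem_and_smul_eq_zero_of_fg_of_le_smul
    (m ^ (n + 1)) (m ^ n • ⊤ : Submodule H W') (IsNoetherian.noetherian _) (by
      rw [← Submodule.mul_smul, ← pow_add]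
      exact (hn' _ (by omega)).le)
  refine ⟨r, fun f hf => ⟨⟨n, fun a ha => ?_⟩, r, ?_, ?_⟩⟩
  · rw [rho_comm]
    exact congrArg Subtype.val
      (hr' (a • (⟨f, hf⟩ : W')) (Submodule.smul_mem_smul ha Submodule.mem_top))
  · exact Ideal.pow_le_self (by omega) hr
  · have h1 : (1 - r) ∈ m ^ n :=
      Ideal.pow_le_pow_right (Nat.le_succ n) (by rw [← neg_sub]; exact neg_mem hr)
    have h2 := congrArg Subtype.val
      (hr' ((1 - r) • (⟨f, hf⟩ : W')) (Submodule.smul_mem_smul h1 Submodule.mem_top))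
    have h3 : ρ r (ρ (1 - r) f) = 0 := h2
    rwa [map_sub, map_one, LinearMap.sub_apply, Module.End.one_apply] at h3

/-- the projector on the `m`-primary part -/
theorem exists_proj (B : FZ F V d) (hfin : ∀ n, FiniteDimensional F (B.fil n))
    (ρ : H →ₐ[F] Module.End F V) (hρ : ∀ h, Appr B B 0 (ρ h)) (m : Ideal H) :
    ∃ e : Module.End F V, Appr B B 0 e ∧ (∀ f, e f ∈ prim ρ m) ∧ (∀ f ∈ prim ρ m, e f = f) ∧
      (∀ h f, e (ρ h f) = ρ h (e f)) ∧ ∀ w, ∃ r : H, ∀ f ∈ B.fil w, e f = ρ r f := by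
  have hfit : ∀ w, ∃ r : H, ∀ f ∈ B.fil w, ρ r f ∈ prim ρ m ∧ f - ρ r f ∈ coprim ρ m := by
    intro w
    have := hfin w
    exact exists_fitting ρ m (B.fil w) (fun h f hf => (hρ h).1 w f hf)
  have hc : IsCompl (prim ρ m) (coprim ρ m) := by
    refine ⟨disjoint_prim ρ m, codisjoint_iff_le_sup.2 fun f _ => ?_⟩
    obtain ⟨w, hw⟩ := B.exh f
    obtain ⟨r, hr⟩ := hfit w
    rw [← add_sub_cancel (ρ r f) f]
    exact Submodule.add_mem_sup (hr f hw).1 (hr f hw).2
  let e : Module.End F V := (prim ρ m).subtype ∘ₗ Submodule.projectionOnto _ _ hc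
  have he : ∀ x ∈ prim ρ m, ∀ y ∈ coprim ρ m, e (x + y) = x := by
    intro x hx y hy
    have h1 : Submodule.projectionOnto _ _ hc x = ⟨x, hx⟩ :=
      Submodule.projectionOnto_apply_left hc ⟨x, hx⟩
    have h2 : Submodule.projectionOnto _ _ hc y = 0 :=
      Submodule.projectionOnto_apply_right hc ⟨y, hy⟩
    simp only [e, LinearMap.comp_apply, map_add]
    rw [h1, h2]
    simp
  have hw : ∀ w, ∃ r : H, ∀ f ∈ B.fil w, e f = ρ r f := by
    intro w
    obtain ⟨r, hr⟩ := hfit w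
    refine ⟨r, fun f hf => ?_⟩
    have := he _ (hr f hf).1 _ (hr f hf).2
    rwa [add_sub_cancel] at this
  refine ⟨e, Appr.limit fun w => ?_, fun f => Subtype.property _, fun f hf => ?_,
    fun h f => ?_, hw⟩
  · obtain ⟨r, hr⟩ := hw w
    exact ⟨ρ r, hρ r, hr⟩
  · simpa using he f hf 0 (Submodule.zero_mem _)
  · obtain ⟨w, hf⟩ := B.exh f
    obtain ⟨r, hr⟩ := hw w
    rw [hr f hf, hr _ ((hρ h).1 w f hf), rho_comm]

end Vale.Agent.P022D.Pur
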